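import Mathlib

namespace Vale.Agent.P047

open Finset

noncomputable section

def val (u : ℤˣ) : ℝ := ((u : ℤ) : ℝ)

@[simp] lemma val_one : val 1 = 1 := by simp [val]
@[simp] lemma val_neg_one : val (-1) = -1 := by simp [val]
lemma val_mul (u v : ℤˣ) : val (u * v) = val u * val v := by simp [val]
lemma val_neg (u : ℤˣ) : val (-u) = - val u := by simp [val]
lemma val_sq (u : ℤˣ) : val u * val u = 1 := by
  rcases Int.units_eq_one_or u with h | h <;> simp [h]
lemma val_inj {u v : ℤˣ} (h : val u = val v) : u = v := by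
  rcases Int.units_eq_one_or u with h1 | h1 <;> rcases Int.units_eq_one_or v with h2 | h2 <;>
    simp [h1, h2] at h ⊢ <;> norm_num at h

lemma sum_units {R : Type*} [AddCommMonoid R] (F : ℤˣ → R) : ∑ u : ℤˣ, F u = F 1 + F (-1) := by
  have : (Finset.univ : Finset ℤˣ) = {1, -1} := by decide
  rw [this, Finset.sum_pair (by decide)]

set_option linter.unusedSectionVars false

variable {ι : Type*} [Fintype ι] [DecidableEq ι]

def wt (t : ℝ) (x : ι → ℤˣ) : ℝ := ∏ i, ((1 + t * val (x i)) / 2)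

def Et (t : ℝ) (f : (ι → ℤˣ) → ℝ) : ℝ := ∑ x, wt t x * f x

def phi (t : ℝ) (S : Finset ι) (x : ι → ℤˣ) : ℝ := ∏ i ∈ S, (val (x i) - t)

lemma Et_add (t : ℝ) (f g : (ι → ℤˣ) → ℝ) : Et t (fun x => f x + g x) = Et t f + Et t g := by
  simp [Et, mul_add, Finset.sum_add_distrib]

lemma Et_sub (t : ℝ) (f g : (ι → ℤˣ) → ℝ) : Et t (fun x => f x - g x) = Et t f - Et t g := by
  simp [Et, mul_sub, Finset.sum_sub_distrib]

lemma Et_const_mul (t c : ℝ) (f : (ι → ℤˣ) → ℝ) : Et t (fun x => c * f x) = c * Et t f := by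
  simp only [Et, Finset.mul_sum]
  refine Finset.sum_congr rfl fun x _ => by ring

lemma Et_sum {κ : Type*} (s : Finset κ) (t : ℝ) (f : κ → (ι → ℤˣ) → ℝ) :
    Et t (fun x => ∑ k ∈ s, f k x) = ∑ k ∈ s, Et t (f k) := by
  simp only [Et, Finset.mul_sum]
  rw [Finset.sum_comm]

lemma Et_prod (t : ℝ) (F : ι → ℤˣ → ℝ) :
    Et t (fun x => ∏ i, F i (x i)) =
      ∏ i, ((1 + t) / 2 * F i 1 + (1 - t) / 2 * F i (-1)) := by
  have h : ∀ i, ((1 + t) / 2 * F i 1 + (1 - t) / 2 * F i (-1)) =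
      ∑ u : ℤˣ, (1 + t * val u) / 2 * F i u := by
    intro i
    rw [sum_units]
    simp only [val_one, val_neg_one]
    ring
  simp_rw [h]
  rw [Finset.prod_univ_sum]
  simp only [Et, wt, Fintype.piFinset_univ]
  refine Finset.sum_congr rfl fun x _ => ?_
  rw [← Finset.prod_mul_distrib]

lemma wt_nonneg {t : ℝ} (h1 : -1 ≤ t) (h2 : t ≤ 1) (x : ι → ℤˣ) : 0 ≤ wt t x := by
  refine Finset.prod_nonneg fun i _ => ?_
  rcases Int.units_eq_one_or (x i) with h | h <;> simp [h] <;> linarith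

lemma Et_mono {t : ℝ} (h1 : -1 ≤ t) (h2 : t ≤ 1) {f g : (ι → ℤˣ) → ℝ}
    (h : ∀ x, f x ≤ g x) : Et t f ≤ Et t g :=
  Finset.sum_le_sum fun x _ => mul_le_mul_of_nonneg_left (h x) (wt_nonneg h1 h2 x)

lemma Et_one (t : ℝ) : Et t (fun _ : ι → ℤˣ => (1 : ℝ)) = 1 := by
  have := Et_prod (ι := ι) t (fun _ _ => (1 : ℝ))
  simp only [Finset.prod_const_one] at this
  rw [this]
  refine Finset.prod_eq_one fun i _ => by ring

lemma Et_phi_mul (t : ℝ) (S T : Finset ι) :
    Et t (fun x => phi t S x * phi t T x) = if S = T then (1 - t ^ 2) ^ S.card else 0 := by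
  have e : ∀ x : ι → ℤˣ, phi t S x * phi t T x =
      ∏ i, ((if i ∈ S then (val (x i) - t) else 1) * (if i ∈ T then (val (x i) - t) else 1)) := by
    intro x
    rw [Finset.prod_mul_distrib]
    simp [phi, Finset.prod_ite_mem]
  simp_rw [e]
  rw [Et_prod t (fun i u => (if i ∈ S then (val u - t) else 1) * (if i ∈ T then (val u - t) else 1))]
  have e2 : ∀ i, ((1 + t) / 2 * ((if i ∈ S then (val 1 - t) else 1) * (if i ∈ T then (val 1 - t) else 1))
      + (1 - t) / 2 * ((if i ∈ S then (val (-1) - t) else 1) * (if i ∈ T then (val (-1) - t) else 1)))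
      = if i ∈ S then (if i ∈ T then 1 - t ^ 2 else 0) else (if i ∈ T then 0 else 1) := by
    intro i
    by_cases hS : i ∈ S <;> by_cases hT : i ∈ T <;> simp [hS, hT] <;> ring
  simp_rw [e2]
  split_ifs with h
  · subst h
    have e3 : ∀ i, (if i ∈ S then (if i ∈ S then 1 - t ^ 2 else 0) else (if i ∈ S then 0 else 1))
        = if i ∈ S then (1 - t ^ 2) else 1 := by
      intro i
      by_cases hi : i ∈ S <;> simp [hi]
    simp_rw [e3]
    rw [Finset.prod_ite]
    simp
  · obtain ⟨i, hi⟩ : ∃ i, ¬ (i ∈ S ↔ i ∈ T) := by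
      by_contra hcon
      push Not at hcon
      exact h (Finset.ext fun i => by simpa using hcon i)
    refine Finset.prod_eq_zero (Finset.mem_univ i) ?_
    by_cases hS : i ∈ S <;> by_cases hT : i ∈ T <;> simp [hS, hT] at hi ⊢

def chi (S : Finset ι) (x : ι → ℤˣ) : ℝ := ∏ i ∈ S, val (x i)

lemma phi_zero (S : Finset ι) (x : ι → ℤˣ) : phi 0 S x = chi S x := by simp [phi, chi]

def fh (f : (ι → ℤˣ) → ℝ) (S : Finset ι) : ℝ := Et 0 (fun x => f x * chi S x)

lemma delta_prod (x y : ι → ℤˣ) :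
    ∏ i, ((1 + val (y i) * val (x i)) / 2) = if y = x then 1 else 0 := by
  split_ifs with h
  · subst h
    refine Finset.prod_eq_one fun i _ => ?_
    rw [val_sq]; norm_num
  · obtain ⟨i, hi⟩ : ∃ i, y i ≠ x i := by
      by_contra hcon
      push Not at hcon
      exact h (funext hcon)
    refine Finset.prod_eq_zero (Finset.mem_univ i) ?_
    rcases Int.units_eq_one_or (x i) with h1 | h1 <;>
      rcases Int.units_eq_one_or (y i) with h2 | h2 <;> simp [h1, h2] at hi ⊢

lemma inversion (f : (ι → ℤˣ) → ℝ) (x : ι → ℤˣ) : f x = ∑ S, fh f S * chi S x := by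
  have h1 : ∀ y : ι → ℤˣ, ∑ S : Finset ι, wt 0 y * (f y * chi S y) * chi S x
      = f y * if y = x then 1 else 0 := by
    intro y
    rw [← delta_prod x y]
    have : ∏ i, ((1 + val (y i) * val (x i)) / 2) = wt 0 y * ∑ S : Finset ι, chi S y * chi S x := by
      have h2 : ∀ S : Finset ι, chi S y * chi S x = ∏ i ∈ S, (val (y i) * val (x i)) := by
        intro S
        rw [chi, chi, Finset.prod_mul_distrib]
      simp_rw [h2]
      rw [← Finset.powerset_univ, ← Finset.prod_one_add, wt, ← Finset.prod_mul_distrib]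
      refine Finset.prod_congr rfl fun i _ => by ring
    rw [this, Finset.mul_sum, Finset.mul_sum]
    refine Finset.sum_congr rfl fun S _ => by ring
  simp only [fh, Et, Finset.sum_mul]
  rw [Finset.sum_comm]
  simp_rw [h1]
  simp

def cf (t : ℝ) (f : (ι → ℤˣ) → ℝ) (S : Finset ι) : ℝ :=
  ∑ T : Finset ι, if S ⊆ T then fh f T * t ^ (T.card - S.card) else 0

lemma chi_expand (t : ℝ) (T : Finset ι) (x : ι → ℤˣ) :
    chi T x = ∑ S : Finset ι, if S ⊆ T then phi t S x * t ^ (T.card - S.card) else 0 := by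
  have h : chi T x = ∏ i ∈ T, ((val (x i) - t) + t) := by
    simp [chi]
  rw [h, Finset.prod_add, ← Finset.sum_filter]
  refine Finset.sum_congr ?_ ?_
  · ext S; simp
  · intro S hS
    simp only [Finset.mem_filter] at hS
    rw [phi, Finset.prod_const, Finset.card_sdiff_of_subset hS.2]

lemma expand (t : ℝ) (f : (ι → ℤˣ) → ℝ) (x : ι → ℤˣ) :
    f x = ∑ S, cf t f S * phi t S x := by
  conv_lhs => rw [inversion f x]
  simp_rw [chi_expand t _ x, cf, Finset.mul_sum, Finset.sum_mul]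
  rw [Finset.sum_comm]
  refine Finset.sum_congr rfl fun S _ => Finset.sum_congr rfl fun T _ => ?_
  split_ifs <;> ring

lemma cf_empty (t : ℝ) (f : (ι → ℤˣ) → ℝ) : cf t f ∅ = ∑ T : Finset ι, fh f T * t ^ T.card := by
  simp [cf]

lemma Et_mul_phi (t : ℝ) (f : (ι → ℤˣ) → ℝ) (S : Finset ι) :
    Et t (fun x => f x * phi t S x) = cf t f S * (1 - t ^ 2) ^ S.card := by
  have h : (fun x => f x * phi t S x) =
      fun x => ∑ T, cf t f T * (phi t T x * phi t S x) := by
    funext x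
    conv_lhs => rw [expand t f x]
    rw [Finset.sum_mul]
    refine Finset.sum_congr rfl fun T _ => by ring
  rw [h, Et_sum]
  simp_rw [Et_const_mul, Et_phi_mul]
  simp

lemma Et_eq (t : ℝ) (f : (ι → ℤˣ) → ℝ) : Et t f = ∑ T : Finset ι, fh f T * t ^ T.card := by
  have := Et_mul_phi t f ∅
  simp [phi] at this
  rw [this, cf_empty]

lemma Et_sq (t : ℝ) (f : (ι → ℤˣ) → ℝ) :
    Et t (fun x => f x * f x) = ∑ S, cf t f S ^ 2 * (1 - t ^ 2) ^ S.card := by
  have h : (fun x => f x * f x) = fun x => ∑ S, cf t f S * (f x * phi t S x) := by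
    funext x
    conv_lhs => rw [expand t f x]
    rw [Finset.sum_mul]
    refine Finset.sum_congr rfl fun T _ => ?_
    rw [← expand t f x]; ring
  rw [h, Et_sum]
  refine Finset.sum_congr rfl fun S _ => ?_
  rw [Et_const_mul, Et_mul_phi]; ring

end

end Vale.Agent.P047
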