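import Mathlib
import Vale.Agent.P047.Basic

namespace Vale.Agent.P047

open Finset

noncomputable section

set_option linter.unusedSectionVars false

variable {ι : Type*} [Fintype ι] [DecidableEq ι]

def K (i : ι) (f : (ι → ℤˣ) → ℝ) (x : ι → ℤˣ) : ℝ :=
  (f (Function.update x i 1) - f (Function.update x i (-1))) / 2

lemma phi_update (t : ℝ) (S : Finset ι) (i : ι) (x : ι → ℤˣ) (u : ℤˣ) :
    phi t S (Function.update x i u) =
      if i ∈ S then (val u - t) * phi t (S.erase i) x else phi t S x := by
  split_ifs with h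
  · rw [phi, phi, ← Finset.mul_prod_erase S _ h]
    congr 1
    · simp
    · refine Finset.prod_congr rfl fun j hj => ?_
      rw [Function.update_of_ne (Finset.ne_of_mem_erase hj)]
  · rw [phi, phi]
    refine Finset.prod_congr rfl fun j hj => ?_
    rw [Function.update_of_ne]
    rintro rfl
    exact h hj

lemma K_expand (t : ℝ) (i : ι) (f : (ι → ℤˣ) → ℝ) (x : ι → ℤˣ) :
    K i f x = ∑ S, if i ∈ S then cf t f S * phi t (S.erase i) x else 0 := by
  rw [K, expand t f (Function.update x i 1), expand t f (Function.update x i (-1)),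
    ← Finset.sum_sub_distrib, Finset.sum_div]
  refine Finset.sum_congr rfl fun S _ => ?_
  rw [phi_update, phi_update]
  split_ifs <;> simp <;> ring

lemma Et_phi (t : ℝ) (S : Finset ι) : Et t (phi t S) = if S = ∅ then 1 else 0 := by
  have := Et_phi_mul t S ∅
  simp only [phi, Finset.prod_empty, mul_one] at this
  change Et t (fun x => ∏ i ∈ S, (val (x i) - t)) = _
  rw [this]
  split_ifs with h
  · simp [h]
  · rfl

lemma Et_K (t : ℝ) (i : ι) (f : (ι → ℤˣ) → ℝ) : Et t (K i f) = cf t f {i} := by
  have h : (K i f) = fun x => ∑ S, (if i ∈ S then cf t f S else 0) * phi t (S.erase i) x := by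
    funext x
    rw [K_expand t]
    refine Finset.sum_congr rfl fun S _ => ?_
    split_ifs <;> simp
  rw [h, Et_sum]
  have h2 : ∀ S : Finset ι, Et t (fun x => (if i ∈ S then cf t f S else 0) * phi t (S.erase i) x) =
      if S = {i} then cf t f {i} else 0 := by
    intro S
    rw [Et_const_mul, Et_phi]
    by_cases hi : i ∈ S
    · by_cases hS : S = {i}
      · simp [hS]
      · have : S.erase i ≠ ∅ := by
          intro h3
          apply hS
          rw [Finset.erase_eq_empty_iff] at h3
          rcases h3 with h3 | h3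
          · simp [h3] at hi
          · exact h3
        simp [hS, this]
    · have : S ≠ {i} := by rintro rfl; simp at hi
      simp [hi, this]
  simp_rw [h2]
  simp

lemma Et_K_sq (t : ℝ) (i : ι) (f : (ι → ℤˣ) → ℝ) :
    (1 - t ^ 2) * Et t (fun x => K i f x * K i f x) =
      ∑ S, if i ∈ S then cf t f S ^ 2 * (1 - t ^ 2) ^ S.card else 0 := by
  have hphi : ∀ S : Finset ι, i ∈ S → Et t (fun x => K i f x * phi t (S.erase i) x) =
      cf t f S * (1 - t ^ 2) ^ (S.erase i).card := by
    intro S hS
    have h : (fun x => K i f x * phi t (S.erase i) x) =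
        fun x => ∑ T, (if i ∈ T then cf t f T else 0) * (phi t (T.erase i) x * phi t (S.erase i) x) := by
      funext x
      rw [K_expand t, Finset.sum_mul]
      refine Finset.sum_congr rfl fun T _ => ?_
      split_ifs <;> ring
    rw [h, Et_sum]
    simp_rw [Et_const_mul, Et_phi_mul]
    rw [Finset.sum_eq_single S]
    · simp [hS]
    · intro T _ hT
      by_cases hi : i ∈ T
      · have : T.erase i ≠ S.erase i := by
          intro h3
          apply hT
          rw [← Finset.insert_erase hi, ← Finset.insert_erase hS, h3]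
        simp [this]
      · simp [hi]
    · simp
  have h : (fun x => K i f x * K i f x) =
      fun x => ∑ S, (if i ∈ S then cf t f S else 0) * (K i f x * phi t (S.erase i) x) := by
    funext x
    conv_lhs =>
      arg 1
      rw [K_expand t]
    rw [Finset.sum_mul]
    refine Finset.sum_congr rfl fun S _ => ?_
    split_ifs <;> ring
  rw [h, Et_sum, Finset.mul_sum]
  refine Finset.sum_congr rfl fun S _ => ?_
  rw [Et_const_mul]
  split_ifs with hi
  · rw [hphi S hi]
    have : S.card = (S.erase i).card + 1 := by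
      rw [Finset.card_erase_of_mem hi]
      have := Finset.card_pos.mpr ⟨i, hi⟩
      omega
    rw [this]; ring
  · simp

def DegLE (f : (ι → ℤˣ) → ℝ) (d : ℕ) : Prop := ∀ T : Finset ι, d < T.card → fh f T = 0

def Bo (f : (ι → ℤˣ) → ℝ) : Prop := ∀ x, f x = 1 ∨ f x = -1

def lin (f : (ι → ℤˣ) → ℝ) : ℝ := ∑ i, fh f {i}

lemma cf_eq_zero {f : (ι → ℤˣ) → ℝ} {d : ℕ} (hf : DegLE f d) (t : ℝ) {S : Finset ι}
    (hS : d < S.card) : cf t f S = 0 := by
  refine Finset.sum_eq_zero fun T _ => ?_
  split_ifs with h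
  · rw [hf T (lt_of_lt_of_le hS (Finset.card_le_card h))]; simp
  · rfl

lemma Et_K_abs_le {f : (ι → ℤˣ) → ℝ} (hf : Bo f) {t : ℝ} (h1 : -1 ≤ t) (h2 : t ≤ 1) (i : ι) :
    |cf t f {i}| ≤ Et t (fun x => K i f x * K i f x) := by
  have hK : ∀ x, -(K i f x * K i f x) ≤ K i f x ∧ K i f x ≤ K i f x * K i f x := by
    intro x
    unfold K
    rcases hf (Function.update x i 1) with ha | ha <;>
      rcases hf (Function.update x i (-1)) with hb | hb <;> rw [ha, hb] <;> norm_num
  rw [← Et_K, abs_le]
  constructor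
  · have := Et_mono h1 h2 (fun x => (hK x).1)
    have h3 : Et t (fun x => -(K i f x * K i f x)) = - Et t (fun x => K i f x * K i f x) := by
      have := Et_const_mul t (-1) (fun x => K i f x * K i f x)
      simpa using this
    linarith
  · exact Et_mono h1 h2 (fun x => (hK x).2)

theorem influence_ineq {f : (ι → ℤˣ) → ℝ} (hf : Bo f) {d : ℕ} (hd : DegLE f d) {t : ℝ}
    (h1 : -1 ≤ t) (h2 : t ≤ 1) :
    (1 - t ^ 2) * |∑ i, cf t f {i}| ≤ d * (1 - Et t f ^ 2) := by
  have hv : 0 ≤ 1 - t ^ 2 := by nlinarith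
  have hEsq : Et t (fun x => f x * f x) = 1 := by
    have : (fun x => f x * f x) = fun _ : ι → ℤˣ => (1 : ℝ) := by
      funext x
      rcases hf x with h | h <;> rw [h] <;> norm_num
    rw [this, Et_one]
  calc (1 - t ^ 2) * |∑ i, cf t f {i}| ≤ (1 - t ^ 2) * ∑ i, |cf t f {i}| :=
        mul_le_mul_of_nonneg_left (Finset.abs_sum_le_sum_abs _ _) hv
    _ ≤ (1 - t ^ 2) * ∑ i, Et t (fun x => K i f x * K i f x) :=
        mul_le_mul_of_nonneg_left (Finset.sum_le_sum fun i _ => Et_K_abs_le hf h1 h2 i) hv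
    _ = ∑ i, ∑ S : Finset ι, if i ∈ S then cf t f S ^ 2 * (1 - t ^ 2) ^ S.card else 0 := by
        rw [Finset.mul_sum]
        exact Finset.sum_congr rfl fun i _ => Et_K_sq t i f
    _ = ∑ S : Finset ι, (S.card : ℝ) * (cf t f S ^ 2 * (1 - t ^ 2) ^ S.card) := by
        rw [Finset.sum_comm]
        refine Finset.sum_congr rfl fun S _ => ?_
        rw [Finset.sum_ite_mem, Finset.univ_inter, Finset.sum_const, nsmul_eq_mul]
    _ ≤ ∑ S : Finset ι, (d : ℝ) * (if S = ∅ then 0 else cf t f S ^ 2 * (1 - t ^ 2) ^ S.card) := by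
        refine Finset.sum_le_sum fun S _ => ?_
        split_ifs with h
        · simp [h]
        · rcases le_or_gt S.card d with h3 | h3
          · have : (S.card : ℝ) ≤ d := by exact_mod_cast h3
            exact mul_le_mul_of_nonneg_right this (by positivity)
          · rw [cf_eq_zero hd t h3]; simp
    _ = d * (1 - Et t f ^ 2) := by
        rw [← Finset.mul_sum]
        congr 1
        have h3 : ∀ S : Finset ι, (if S = ∅ then 0 else cf t f S ^ 2 * (1 - t ^ 2) ^ S.card) =
            cf t f S ^ 2 * (1 - t ^ 2) ^ S.card - (if S = ∅ then cf t f ∅ ^ 2 else 0) := by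
          intro S
          split_ifs with h
          · simp [h]
          · simp
        simp_rw [h3]
        rw [Finset.sum_sub_distrib, ← Et_sq, hEsq, cf_empty, ← Et_eq]
        simp

lemma cf_single_sum (t : ℝ) (f : (ι → ℤˣ) → ℝ) :
    ∑ i, cf t f {i} = ∑ T : Finset ι, fh f T * (T.card * t ^ (T.card - 1)) := by
  simp only [cf, Finset.singleton_subset_iff, Finset.card_singleton]
  rw [Finset.sum_comm]
  refine Finset.sum_congr rfl fun T _ => ?_
  rw [Finset.sum_ite_mem, Finset.univ_inter, Finset.sum_const, nsmul_eq_mul]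
  ring

lemma hasDerivAt_Et (f : (ι → ℤˣ) → ℝ) (t : ℝ) :
    HasDerivAt (fun s => Et s f) (∑ i, cf t f {i}) t := by
  rw [cf_single_sum]
  have h : (fun s => Et s f) = fun s => ∑ T : Finset ι, fh f T * s ^ T.card := by
    funext s; exact Et_eq s f
  rw [h]
  refine HasDerivAt.fun_sum fun T _ => ?_
  exact (hasDerivAt_pow T.card t).const_mul _

lemma abs_Et_le {f : (ι → ℤˣ) → ℝ} (hf : Bo f) {t : ℝ} (h1 : -1 ≤ t) (h2 : t ≤ 1) :
    |Et t f| ≤ 1 := by
  have ha : ∀ x, -1 ≤ f x ∧ f x ≤ 1 := by
    intro x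
    rcases hf x with h | h <;> rw [h] <;> norm_num
  rw [abs_le]
  constructor
  · have := Et_mono h1 h2 (fun x => (ha x).1)
    have h3 : Et t (fun _ : ι → ℤˣ => (-1 : ℝ)) = -1 := by
      have := Et_const_mul t (-1) (fun _ : ι → ℤˣ => (1 : ℝ))
      rw [Et_one] at this
      simpa using this
    linarith
  · have := Et_mono h1 h2 (fun x => (ha x).2)
    rw [Et_one] at this
    exact this

end

end Vale.Agent.P047
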