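import Mathlib
import Vale.Agent.P047.Influence

namespace Vale.Agent.P047

open Finset

noncomputable section

set_option linter.unusedSectionVars false

section general

variable {ι : Type*} [Fintype ι] [DecidableEq ι]

lemma Et_chi_mul (S T : Finset ι) :
    Et 0 (fun x => chi S x * chi T x) = if S = T then 1 else 0 := by
  have := Et_phi_mul (ι := ι) 0 S T
  simp only [phi_zero] at this
  rw [this]
  simp

lemma Et_chi (T : Finset ι) : Et 0 (fun x => chi T x) = if T = ∅ then 1 else 0 := by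
  have := Et_chi_mul (ι := ι) ∅ T
  simp only [chi, Finset.prod_empty, one_mul] at this
  simp only [chi]
  rw [this]
  simp [eq_comm]

lemma fh_sum_chi {κ : Type*} (J : Finset κ) (a : κ → ℝ) (S : κ → Finset ι) (R : Finset ι) :
    fh (fun x => ∑ j ∈ J, a j * chi (S j) x) R = ∑ j ∈ J, if S j = R then a j else 0 := by
  have h : (fun x : ι → ℤˣ => (∑ j ∈ J, a j * chi (S j) x) * chi R x) =
      fun x => ∑ j ∈ J, a j * (chi (S j) x * chi R x) := by
    funext x
    rw [Finset.sum_mul]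
    exact Finset.sum_congr rfl fun j _ => by ring
  rw [fh, h, Et_sum]
  simp_rw [Et_const_mul, Et_chi_mul]
  refine Finset.sum_congr rfl fun j _ => by split_ifs <;> simp

def oddS (T : Finset ι) : Finset (Option ι) :=
  if Even T.card then insert none (T.map Function.Embedding.some) else T.map Function.Embedding.some

lemma chi_oddS (T : Finset ι) (x : Option ι → ℤˣ) :
    chi (oddS T) x = val (x none) ^ (T.card + 1) * chi T (fun i => x (some i)) := by
  have h2 : val (x none) ^ 2 = 1 := by rw [sq, val_sq]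
  rw [oddS]
  split_ifs with h
  · obtain ⟨m, hm⟩ := h
    rw [chi, Finset.prod_insert (by simp), Finset.prod_map, chi]
    have : val (x none) ^ (T.card + 1) = val (x none) := by
      rw [hm, show m + m + 1 = 2 * m + 1 by ring, pow_succ, pow_mul, h2]
      simp
    rw [this]
    rfl
  · rw [Nat.not_even_iff_odd] at h
    obtain ⟨m, hm⟩ := h
    rw [chi, Finset.prod_map, chi]
    have : val (x none) ^ (T.card + 1) = 1 := by
      rw [hm, show 2 * m + 1 + 1 = 2 * (m + 1) by ring, pow_mul, h2]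
      simp
    rw [this, one_mul]
    rfl

lemma card_oddS (T : Finset ι) : (oddS T).card ≤ T.card + 1 := by
  rw [oddS]
  split_ifs
  · rw [Finset.card_insert_of_notMem (by simp), Finset.card_map]
  · rw [Finset.card_map]; omega

def oddize (σ : ℤˣ) (f : (ι → ℤˣ) → ℝ) (x : Option ι → ℤˣ) : ℝ :=
  val (σ * x none) * f (fun i => σ * x none * x (some i))

lemma chi_mul_const (T : Finset ι) (u : ℤˣ) (x : ι → ℤˣ) :
    chi T (fun i => u * x i) = val u ^ T.card * chi T x := by
  rw [chi, chi]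
  simp_rw [val_mul]
  rw [Finset.prod_mul_distrib, Finset.prod_const]

lemma oddize_eq (σ : ℤˣ) (f : (ι → ℤˣ) → ℝ) :
    oddize σ f = fun x => ∑ T, (fh f T * val σ ^ (T.card + 1)) * chi (oddS T) x := by
  funext x
  rw [oddize, inversion f, Finset.mul_sum]
  refine Finset.sum_congr rfl fun T _ => ?_
  rw [chi_mul_const, chi_oddS, val_mul]
  ring

lemma oddS_eq_empty (T : Finset ι) : oddS T ≠ ∅ := by
  rw [oddS]
  split_ifs with h
  · simp
  · intro h2
    rw [Finset.map_eq_empty] at h2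
    rw [h2] at h
    simp at h

lemma oddS_eq_none (T : Finset ι) : oddS T = {none} ↔ T = ∅ := by
  constructor
  · intro h
    by_contra hT
    obtain ⟨i, hi⟩ := Finset.nonempty_iff_ne_empty.mpr hT
    have : (some i) ∈ oddS T := by
      rw [oddS]; split_ifs <;> simp [hi]
    rw [h] at this
    simp at this
  · rintro rfl
    simp [oddS]

lemma oddS_eq_some (T : Finset ι) (i : ι) : oddS T = {some i} ↔ T = {i} := by
  constructor
  · intro h
    have hmem : ∀ j, some j ∈ oddS T ↔ j ∈ T := by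
      intro j
      rw [oddS]; split_ifs <;> simp
    ext j
    rw [← hmem j, h]
    simp
  · rintro rfl
    simp [oddS]

lemma Bo_oddize {f : (ι → ℤˣ) → ℝ} (hf : Bo f) (σ : ℤˣ) : Bo (oddize σ f) := by
  intro x
  rw [oddize]
  rcases hf (fun i => σ * x none * x (some i)) with h | h <;>
    rcases Int.units_eq_one_or (σ * x none) with h2 | h2 <;> rw [h, h2] <;> simp

lemma DegLE_oddize {f : (ι → ℤˣ) → ℝ} {d : ℕ} (hf : DegLE f d) (σ : ℤˣ) :
    DegLE (oddize σ f) (d + 1) := by
  intro R hR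
  rw [oddize_eq, fh_sum_chi]
  refine Finset.sum_eq_zero fun T _ => ?_
  split_ifs with h
  · have h1 := card_oddS T
    rw [h] at h1
    rw [hf T (by omega)]
    simp
  · rfl

lemma fh_oddize_empty (f : (ι → ℤˣ) → ℝ) (σ : ℤˣ) : fh (oddize σ f) ∅ = 0 := by
  rw [oddize_eq, fh_sum_chi]
  refine Finset.sum_eq_zero fun T _ => ?_
  rw [if_neg (oddS_eq_empty T)]

lemma lin_oddize (f : (ι → ℤˣ) → ℝ) (σ : ℤˣ) :
    lin (oddize σ f) = val σ * fh f ∅ + lin f := by
  rw [lin, Fintype.sum_option]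
  congr 1
  · rw [oddize_eq, fh_sum_chi]
    simp_rw [oddS_eq_none]
    simp [mul_comm]
  · rw [lin]
    refine Finset.sum_congr rfl fun i _ => ?_
    rw [oddize_eq, fh_sum_chi]
    simp_rw [oddS_eq_some]
    have : val σ ^ 2 = 1 := by rw [sq, val_sq]
    simp [this]

def tu (r : ℝ) : ℤˣ := if r = 1 then 1 else -1

lemma val_tu {r : ℝ} (h : r = 1 ∨ r = -1) : val (tu r) = r := by
  rcases h with h | h
  · simp [tu, h]
  · rw [tu, h]
    norm_num [val]

end general

section comp

variable {ι κ : Type*} [Fintype ι] [DecidableEq ι] [Fintype κ] [DecidableEq κ]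

lemma Et_block (F : ι → (κ → ℤˣ) → ℝ) :
    Et 0 (fun x : ι × κ → ℤˣ => ∏ i, F i (fun k => x (i, k))) = ∏ i, Et 0 (F i) := by
  have h1 : ∏ i, Et 0 (F i) = ∑ y : ι → κ → ℤˣ, ∏ i, (wt 0 (y i) * F i (y i)) := by
    simp only [Et]
    rw [Finset.prod_univ_sum]
    simp
  rw [h1, Et, ← (Equiv.curry ι κ ℤˣ).sum_comp]
  refine Finset.sum_congr rfl fun x _ => ?_
  rw [Finset.prod_mul_distrib]
  congr 1
  rw [wt, Fintype.prod_prod_type]
  rfl

def fib (R : Finset (ι × κ)) (i : ι) : Finset κ := Finset.univ.filter (fun k => (i, k) ∈ R)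

lemma chi_fib (R : Finset (ι × κ)) (x : ι × κ → ℤˣ) :
    chi R x = ∏ i, chi (fib R i) (fun k => x (i, k)) := by
  have h : chi R x = ∏ p : ι × κ, if p ∈ R then val (x p) else 1 := by
    rw [Finset.prod_ite_mem, Finset.univ_inter, chi]
  rw [h, Fintype.prod_prod_type]
  refine Finset.prod_congr rfl fun i _ => ?_
  rw [chi, fib, Finset.prod_filter]

lemma card_fib (R : Finset (ι × κ)) : R.card = ∑ i, (fib R i).card := by
  have h : R.card = ∑ p : ι × κ, if p ∈ R then 1 else 0 := by simp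
  rw [h, Fintype.sum_prod_type]
  refine Finset.sum_congr rfl fun i _ => ?_
  rw [fib, Finset.card_filter]

def comp (f : (ι → ℤˣ) → ℝ) (g : (κ → ℤˣ) → ℝ) (x : ι × κ → ℤˣ) : ℝ :=
  f (fun i => tu (g (fun k => x (i, k))))

lemma Bo_comp {f : (ι → ℤˣ) → ℝ} (hf : Bo f) (g : (κ → ℤˣ) → ℝ) : Bo (comp f g) :=
  fun _ => hf _

lemma fh_comp (f : (ι → ℤˣ) → ℝ) {g : (κ → ℤˣ) → ℝ} (hg : Bo g) (R : Finset (ι × κ)) :
    fh (comp f g) R = ∑ S : Finset ι, fh f S *
      ∏ i, (if i ∈ S then fh g (fib R i) else if fib R i = ∅ then 1 else 0) := by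
  have h : (fun x : ι × κ → ℤˣ => comp f g x * chi R x) = fun x => ∑ S : Finset ι, fh f S *
      ∏ i, ((if i ∈ S then g (fun k => x (i, k)) else 1) * chi (fib R i) (fun k => x (i, k))) := by
    funext x
    rw [comp, inversion f, Finset.sum_mul]
    refine Finset.sum_congr rfl fun S _ => ?_
    rw [Finset.prod_mul_distrib, ← chi_fib, Finset.prod_ite_mem, Finset.univ_inter, mul_assoc]
    congr 2
    rw [chi]
    exact Finset.prod_congr rfl fun i _ => val_tu (hg _)
  rw [fh, h, Et_sum]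
  refine Finset.sum_congr rfl fun S _ => ?_
  rw [Et_const_mul, Et_block (fun i y => (if i ∈ S then g y else 1) * chi (fib R i) y)]
  congr 1
  refine Finset.prod_congr rfl fun i _ => ?_
  split_ifs with h1 h2
  · rfl
  · simp only [one_mul]
    rw [Et_chi, if_pos h2]
  · simp only [one_mul]
    rw [Et_chi, if_neg h2]

lemma DegLE_comp {f : (ι → ℤˣ) → ℝ} {g : (κ → ℤˣ) → ℝ} (hg : Bo g) {d e : ℕ}
    (hfd : DegLE f d) (hge : DegLE g e) : DegLE (comp f g) (d * e) := by
  intro R hR
  rw [fh_comp f hg]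
  refine Finset.sum_eq_zero fun S _ => ?_
  rcases Nat.lt_or_ge d S.card with h | h
  · rw [hfd S h, zero_mul]
  · have : ∃ i, (if i ∈ S then fh g (fib R i) else if fib R i = ∅ then 1 else 0) = 0 := by
      by_contra hcon
      push Not at hcon
      have h1 : ∀ i, i ∉ S → (fib R i).card = 0 := by
        intro i hi
        have := hcon i
        rw [if_neg hi] at this
        by_contra h2
        rw [Finset.card_eq_zero] at h2
        rw [if_neg h2] at this
        exact this rfl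
      have h2 : ∀ i ∈ S, (fib R i).card ≤ e := by
        intro i hi
        have := hcon i
        rw [if_pos hi] at this
        by_contra h3
        exact this (hge _ (by omega))
      have h3 : R.card ≤ d * e := by
        rw [card_fib, ← Finset.sum_subset (Finset.subset_univ S) (fun i _ hi => h1 i hi)]
        calc ∑ i ∈ S, (fib R i).card ≤ ∑ i ∈ S, e := Finset.sum_le_sum h2
          _ = S.card * e := by simp
          _ ≤ d * e := Nat.mul_le_mul_right e h
      omega
    obtain ⟨i, hi⟩ := this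
    rw [Finset.prod_eq_zero (Finset.mem_univ i) hi, mul_zero]

lemma fib_singleton (i : ι) (k : κ) (j : ι) :
    fib ({(i, k)} : Finset (ι × κ)) j = if j = i then {k} else ∅ := by
  ext l
  by_cases h : j = i
  · subst h; simp [fib]
  · simp [fib, h]

lemma fh_comp_single (f : (ι → ℤˣ) → ℝ) {g : (κ → ℤˣ) → ℝ} (hg : Bo g) (hb : fh g ∅ = 0)
    (i : ι) (k : κ) : fh (comp f g) {(i, k)} = fh f {i} * fh g {k} := by
  rw [fh_comp f hg, Finset.sum_eq_single {i}]
  · congr 1
    rw [Finset.prod_eq_single i]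
    · simp [fib_singleton]
    · intro j _ hj
      simp [fib_singleton, hj]
    · simp
  · intro S _ hS
    by_cases hi : i ∈ S
    · obtain ⟨j, hj, hji⟩ : ∃ j ∈ S, j ≠ i := by
        by_contra hcon
        push Not at hcon
        apply hS
        ext j
        constructor
        · intro hj; simpa using hcon j hj
        · intro hj
          rw [Finset.mem_singleton] at hj
          rw [hj]; exact hi
      rw [Finset.prod_eq_zero (Finset.mem_univ j), mul_zero]
      rw [if_pos hj, fib_singleton, if_neg hji, hb]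
    · rw [Finset.prod_eq_zero (Finset.mem_univ i), mul_zero]
      rw [if_neg hi, fib_singleton, if_pos rfl]
      simp
  · simp

lemma lin_comp (f : (ι → ℤˣ) → ℝ) {g : (κ → ℤˣ) → ℝ} (hg : Bo g) (hb : fh g ∅ = 0) :
    lin (comp f g) = lin f * lin g := by
  rw [lin, Fintype.sum_prod_type, lin, lin, Finset.sum_mul_sum]
  exact Finset.sum_congr rfl fun i _ => Finset.sum_congr rfl fun k _ => fh_comp_single f hg hb i k

end comp

section transfer

variable {ι κ : Type*} [Fintype ι] [DecidableEq ι] [Fintype κ] [DecidableEq κ]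

def tr (e : ι ≃ κ) (f : (ι → ℤˣ) → ℝ) (x : κ → ℤˣ) : ℝ := f (fun i => x (e i))

lemma fh_tr (e : ι ≃ κ) (f : (ι → ℤˣ) → ℝ) (S : Finset ι) :
    fh (tr e f) (S.map e.toEmbedding) = fh f S := by
  rw [fh, fh, Et, Et, ← (Equiv.arrowCongr e (Equiv.refl ℤˣ)).sum_comp]
  refine Finset.sum_congr rfl fun x _ => ?_
  congr 1
  · rw [wt, wt]
    simp
    exact (Fintype.card_congr e).symm
  · rw [tr, chi, chi, Finset.prod_map]
    simp

lemma map_surj (e : ι ≃ κ) (T : Finset κ) : ∃ S : Finset ι, S.map e.toEmbedding = T := by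
  refine ⟨T.map e.symm.toEmbedding, ?_⟩
  ext k
  simp

lemma DegLE_tr (e : ι ≃ κ) {f : (ι → ℤˣ) → ℝ} {d : ℕ} (h : DegLE f d) : DegLE (tr e f) d := by
  intro T hT
  obtain ⟨S, rfl⟩ := map_surj e T
  rw [fh_tr]
  exact h S (by simpa using hT)

lemma fh_tr_empty (e : ι ≃ κ) (f : (ι → ℤˣ) → ℝ) : fh (tr e f) ∅ = fh f ∅ := by
  rw [← fh_tr e f ∅]; simp

lemma lin_tr (e : ι ≃ κ) (f : (ι → ℤˣ) → ℝ) : lin (tr e f) = lin f := by
  rw [lin, lin, ← e.sum_comp]
  refine Finset.sum_congr rfl fun i _ => ?_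
  rw [← fh_tr e f {i}]; simp

lemma Bo_tr (e : ι ≃ κ) {f : (ι → ℤˣ) → ℝ} (h : Bo f) : Bo (tr e f) := fun _ => h _

end transfer

def Bal (a : ℝ) (w : ℕ) : Prop :=
  ∃ (n : ℕ) (f : (Fin n → ℤˣ) → ℝ), 1 ≤ n ∧ Bo f ∧ DegLE f w ∧ fh f ∅ = 0 ∧ a ≤ lin f

lemma Bal_of {ι : Type*} [Fintype ι] [DecidableEq ι] [Nonempty ι] {f : (ι → ℤˣ) → ℝ} {a : ℝ} {w : ℕ}
    (h1 : Bo f) (h2 : DegLE f w) (h3 : fh f ∅ = 0) (h4 : a ≤ lin f) : Bal a w := by
  let e := Fintype.equivFin ι
  refine ⟨Fintype.card ι, tr e f, Fintype.card_pos, Bo_tr e h1, DegLE_tr e h2, ?_, ?_⟩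
  · rw [fh_tr_empty, h3]
  · rw [lin_tr]; exact h4

def wseq (d : ℕ) : ℕ → ℕ
  | 0 => 1
  | k + 1 => d * wseq d k + 1

lemma Bal_zero : Bal 1 1 := by
  have hf : (fun x : Fin 1 → ℤˣ => val (x 0)) = fun x => ∑ j ∈ ({0} : Finset ℕ), (1 : ℝ) * chi ({0} : Finset (Fin 1)) x := by
    funext x
    simp [chi]
  refine ⟨1, fun x => val (x 0), le_rfl, ?_, ?_, ?_, ?_⟩
  · intro x
    rcases Int.units_eq_one_or (x 0) with h | h <;> simp [h]
  · intro T hT
    have := Finset.card_le_univ T
    simp at this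
    omega
  · rw [hf, fh_sum_chi]
    simp
  · rw [lin, hf, Fin.sum_univ_one, fh_sum_chi]
    simp

theorem Bal_pow {n : ℕ} {f : (Fin n → ℤˣ) → ℝ} (hf : Bo f) {d : ℕ} (hd : DegLE f d)
    (hA : 0 ≤ lin f) (k : ℕ) : Bal (lin f ^ k) (wseq d k) := by
  induction k with
  | zero => simpa [wseq] using Bal_zero
  | succ k ih =>
    obtain ⟨m, g, _, hg, hge, hgb, hgl⟩ := ih
    have h1 : lin f ^ (k + 1) ≤ lin (comp f g) := by
      rw [lin_comp f hg hgb, pow_succ, mul_comm]
      exact mul_le_mul_of_nonneg_left hgl hA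
    rcases le_total 0 (fh (comp f g) ∅) with h | h
    · refine Bal_of (Bo_oddize (Bo_comp hf g) 1) (DegLE_oddize (DegLE_comp hg hd hge) 1)
        (fh_oddize_empty _ _) ?_
      rw [lin_oddize]
      simp only [val_one, one_mul]
      linarith
    · refine Bal_of (Bo_oddize (Bo_comp hf g) (-1)) (DegLE_oddize (DegLE_comp hg hd hge) (-1))
        (fh_oddize_empty _ _) ?_
      rw [lin_oddize]
      simp only [val_neg_one]
      linarith

end

end Vale.Agent.P047
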