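import Mathlib
import Vale.Agent.P047.Compose

namespace Vale.Agent.P047

open Finset

noncomputable section

set_option linter.unusedSectionVars false

variable {ι : Type*} [Fintype ι] [DecidableEq ι]

def cube (A : Finset ι) (z : ι → ℤˣ) (x : ι → ℤˣ) : ℝ := if ∀ i ∈ A, x i = z i then 1 else 0

lemma cube_eq (A : Finset ι) (z x : ι → ℤˣ) :
    cube A z x = ∏ i ∈ A, ((1 + val (z i) * val (x i)) / 2) := by
  rw [cube]
  split_ifs with h
  · symm
    refine Finset.prod_eq_one fun i hi => ?_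
    rw [h i hi, val_sq]; norm_num
  · push Not at h
    obtain ⟨i, hi, hne⟩ := h
    symm
    refine Finset.prod_eq_zero hi ?_
    rcases Int.units_eq_one_or (x i) with h1 | h1 <;>
      rcases Int.units_eq_one_or (z i) with h2 | h2 <;> simp [h1, h2] at hne ⊢

lemma Et_cube (t : ℝ) (A : Finset ι) (z : ι → ℤˣ) :
    Et t (cube A z) = ∏ i ∈ A, ((1 + t * val (z i)) / 2) := by
  have h : (cube A z) = fun x => ∏ i, (if i ∈ A then (1 + val (z i) * val (x i)) / 2 else 1) := by
    funext x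
    rw [cube_eq, Finset.prod_ite_mem, Finset.univ_inter]
  rw [h, Et_prod t (fun i u => if i ∈ A then (1 + val (z i) * val u) / 2 else 1)]
  have h2 : ∀ i, ((1 + t) / 2 * (if i ∈ A then (1 + val (z i) * val 1) / 2 else 1) +
      (1 - t) / 2 * (if i ∈ A then (1 + val (z i) * val (-1)) / 2 else 1)) =
      if i ∈ A then (1 + t * val (z i)) / 2 else 1 := by
    intro i
    split_ifs
    · simp only [val_one, val_neg_one]; ring
    · ring
  simp_rw [h2]
  rw [Finset.prod_ite_mem, Finset.univ_inter]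

lemma cube_chi (A : Finset ι) (z : ι → ℤˣ) :
    cube A z = fun x => ∑ T ∈ A.powerset, ((1 / 2) ^ A.card * chi T z) * chi T x := by
  funext x
  rw [cube_eq]
  have h : ∀ i ∈ A, (1 + val (z i) * val (x i)) / 2 = (1 / 2) * (1 + val (z i) * val (x i)) := by
    intro i _; ring
  rw [Finset.prod_congr rfl h, Finset.prod_mul_distrib, Finset.prod_const, Finset.prod_one_add,
    Finset.mul_sum]
  refine Finset.sum_congr rfl fun T _ => ?_
  rw [Finset.prod_mul_distrib, chi, chi]; ring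

lemma fh_cube (A : Finset ι) (z : ι → ℤˣ) (T : Finset ι) :
    fh (cube A z) T = if T ⊆ A then (1 / 2) ^ A.card * chi T z else 0 := by
  rw [cube_chi, fh_sum_chi]
  by_cases h : T ⊆ A
  · rw [if_pos h, Finset.sum_eq_single T]
    · simp
    · intro S _ hS; rw [if_neg hS]
    · intro h2; exact absurd (Finset.mem_powerset.mpr h) h2
  · rw [if_neg h]
    refine Finset.sum_eq_zero fun S hS => ?_
    rw [if_neg]
    rintro rfl
    exact h (Finset.mem_powerset.mp hS)

lemma fh_add (f g : (ι → ℤˣ) → ℝ) (T : Finset ι) : fh (fun x => f x + g x) T = fh f T + fh g T := by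
  rw [fh, fh, fh, ← Et_add]
  congr 1; funext x; ring

lemma fh_const_mul (c : ℝ) (f : (ι → ℤˣ) → ℝ) (T : Finset ι) :
    fh (fun x => c * f x) T = c * fh f T := by
  rw [fh, fh, ← Et_const_mul]
  congr 1; funext x; ring

lemma fh_sum {κ : Type*} (J : Finset κ) (f : κ → (ι → ℤˣ) → ℝ) (T : Finset ι) :
    fh (fun x => ∑ j ∈ J, f j x) T = ∑ j ∈ J, fh (f j) T := by
  simp only [fh]
  rw [← Et_sum]
  congr 1; funext x; rw [Finset.sum_mul]

lemma fh_const (c : ℝ) (T : Finset ι) : fh (fun _ : ι → ℤˣ => c) T = if T = ∅ then c else 0 := by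
  have : (fun _ : ι → ℤˣ => c) = fun x => ∑ j ∈ ({0} : Finset ℕ), c * chi (∅ : Finset ι) x := by
    funext x; simp [chi]
  rw [this, fh_sum_chi]
  simp [eq_comm]

lemma lin_cube (A : Finset ι) (z : ι → ℤˣ) :
    lin (cube A z) = (1 / 2) ^ A.card * ∑ i ∈ A, val (z i) := by
  rw [lin, Finset.mul_sum]
  have : ∀ i, fh (cube A z) {i} = if i ∈ A then (1 / 2) ^ A.card * val (z i) else 0 := by
    intro i
    rw [fh_cube]
    simp [chi]
  simp_rw [this]
  rw [Finset.sum_ite_mem, Finset.univ_inter]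

lemma lin_of_conical {f : (ι → ℤˣ) → ℝ} {κ : Type*} (J : Finset κ) (c : κ → ℝ)
    (A : κ → Finset ι) (z : κ → ι → ℤˣ)
    (h : ∀ x, (1 + f x) / 2 = ∑ j ∈ J, c j * cube (A j) (z j) x) :
    lin f = 2 * ∑ j ∈ J, c j * ((1 / 2) ^ (A j).card * ∑ i ∈ A j, val (z j i)) := by
  have hf : f = fun x => (-1) + 2 * ∑ j ∈ J, c j * cube (A j) (z j) x := by
    funext x; rw [← h x]; ring
  have h1 : ∀ i, fh f {i} = 2 * ∑ j ∈ J, c j * fh (cube (A j) (z j)) {i} := by
    intro i
    rw [hf, fh_add (fun _ => (-1 : ℝ)), fh_const, fh_const_mul, fh_sum]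
    simp [fh_const_mul]
  rw [lin]
  simp_rw [h1]
  rw [← Finset.mul_sum, Finset.sum_comm]
  congr 1
  refine Finset.sum_congr rfl fun j _ => ?_
  rw [← Finset.mul_sum, ← lin_cube, lin]

lemma prod_lower {A : Finset ι} {z : ι → ℤˣ} {D : ℕ} (hD : 0 < D) (hA : A.card ≤ D) (σ : ℝ)
    (hσ : σ = 1 ∨ σ = -1) :
    Real.sqrt (Real.exp 1 / D) * (σ * ∑ i ∈ A, val (z i)) ≤
      ∏ i ∈ A, (1 + (σ * Real.tanh (1 / Real.sqrt D)) * val (z i)) := by
  set u := 1 / Real.sqrt D with hu
  have hDR : (0 : ℝ) < D := by exact_mod_cast hD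
  have hcosh : 0 < Real.cosh u := Real.cosh_pos u
  have hterm : ∀ i ∈ A, (1 + (σ * Real.tanh u) * val (z i)) =
      Real.exp (u * (σ * val (z i))) / Real.cosh u := by
    intro i _
    have hz : σ * val (z i) = 1 ∨ σ * val (z i) = -1 := by
      rcases hσ with h | h <;> rcases Int.units_eq_one_or (z i) with h1 | h1 <;> simp [h, h1]
    have e : 1 + (σ * Real.tanh u) * val (z i) = 1 + Real.tanh u * (σ * val (z i)) := by ring
    rw [e]
    rcases hz with h | h
    · rw [h, Real.tanh_eq_sinh_div_cosh, mul_one, mul_one, eq_div_iff hcosh.ne', add_mul,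
        div_mul_cancel₀ _ hcosh.ne', one_mul, Real.cosh_add_sinh]
    · rw [h, Real.tanh_eq_sinh_div_cosh, eq_div_iff hcosh.ne']
      have : (1 + Real.sinh u / Real.cosh u * -1) * Real.cosh u = Real.cosh u - Real.sinh u := by
        field_simp; ring
      rw [this, Real.cosh_sub_sinh]
      congr 1; ring
  rw [Finset.prod_congr rfl hterm, Finset.prod_div_distrib, Finset.prod_const, ← Real.exp_sum]
  set s := σ * ∑ i ∈ A, val (z i) with hs
  have hsum : ∑ i ∈ A, u * (σ * val (z i)) = u * s := by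
    rw [hs, Finset.mul_sum, Finset.mul_sum]
  rw [hsum]
  have hc1 : 1 ≤ Real.cosh u := Real.one_le_cosh u
  have hc2 : Real.cosh u ^ A.card ≤ Real.exp (1 / 2) := by
    calc Real.cosh u ^ A.card ≤ Real.cosh u ^ D := pow_le_pow_right₀ hc1 hA
      _ ≤ (Real.exp (u ^ 2 / 2)) ^ D := pow_le_pow_left₀ hcosh.le (Real.cosh_le_exp_half_sq u) D
      _ = Real.exp (1 / 2) := by
        rw [← Real.exp_nat_mul]
        congr 1
        rw [hu, div_pow, Real.sq_sqrt hDR.le]
        field_simp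
  have hpow : 0 < Real.cosh u ^ A.card := pow_pos hcosh _
  have h1 : Real.exp (u * s - 1 / 2) ≤ Real.exp (u * s) / Real.cosh u ^ A.card := by
    rw [le_div_iff₀ hpow, Real.exp_sub]
    calc Real.exp (u * s) / Real.exp (1 / 2) * Real.cosh u ^ A.card
        ≤ Real.exp (u * s) / Real.exp (1 / 2) * Real.exp (1 / 2) :=
          mul_le_mul_of_nonneg_left hc2 (by positivity)
      _ = Real.exp (u * s) := by field_simp
  refine le_trans ?_ h1
  have h2 : Real.exp (u * s - 1 / 2) = Real.exp (1 / 2) * Real.exp (u * s - 1) := by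
    rw [← Real.exp_add]; congr 1; ring
  have h3 : u * s ≤ Real.exp (u * s - 1) := by
    have := Real.add_one_le_exp (u * s - 1)
    linarith
  rw [h2]
  have h4 : Real.sqrt (Real.exp 1 / D) = Real.exp (1 / 2) * u := by
    rw [Real.sqrt_div (Real.exp_pos 1).le, hu]
    have : Real.sqrt (Real.exp 1) = Real.exp (1 / 2) := by
      rw [Real.sqrt_eq_iff_mul_self_eq (Real.exp_pos 1).le (Real.exp_pos _).le, ← Real.exp_add]
      norm_num
    rw [this]; ring
  rw [h4, mul_assoc]
  exact mul_le_mul_of_nonneg_left h3 (Real.exp_pos _).le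

theorem conical_bound_aux {f : (ι → ℤˣ) → ℝ} (hf : Bo f) {κ : Type*} (J : Finset κ) (c : κ → ℝ)
    (hc : ∀ j ∈ J, 0 ≤ c j) (A : κ → Finset ι) (z : κ → ι → ℤˣ) {D : ℕ}
    (hA : ∀ j ∈ J, (A j).card ≤ D)
    (h : ∀ x, (1 + f x) / 2 = ∑ j ∈ J, c j * cube (A j) (z j) x) (σ : ℝ) (hσ : σ = 1 ∨ σ = -1) :
    σ * lin f ≤ 2 * Real.sqrt (D / Real.exp 1) := by
  rw [lin_of_conical J c A z h]
  rcases Nat.eq_zero_or_pos D with h0 | hD
  · have : ∑ j ∈ J, c j * ((1 / 2) ^ (A j).card * ∑ i ∈ A j, val (z j i)) = 0 := by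
      refine Finset.sum_eq_zero fun j hj => ?_
      have h1 : A j = ∅ := by
        rw [← Finset.card_eq_zero]; have := hA j hj; omega
      simp [h1]
    rw [this]
    simp only [mul_zero]
    positivity
  · have hDR : (0 : ℝ) < D := by exact_mod_cast hD
    set t := σ * Real.tanh (1 / Real.sqrt D) with ht
    have ht1 : -1 ≤ t ∧ t ≤ 1 := by
      have h1 := Real.abs_tanh_lt_one (1 / Real.sqrt D)
      rw [abs_lt] at h1
      rcases hσ with h2 | h2 <;> rw [ht, h2] <;> constructor <;> linarith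
    have hE : Et t (fun x => (1 + f x) / 2) ≤ 1 := by
      have h1 : ∀ x, (1 + f x) / 2 ≤ 1 := by
        intro x; rcases hf x with h2 | h2 <;> rw [h2] <;> norm_num
      have := Et_mono ht1.1 ht1.2 h1
      rwa [Et_one] at this
    have hE2 : Et t (fun x => (1 + f x) / 2) =
        ∑ j ∈ J, c j * ∏ i ∈ A j, ((1 + t * val (z j i)) / 2) := by
      have : (fun x => (1 + f x) / 2) = fun x => ∑ j ∈ J, c j * cube (A j) (z j) x := funext h
      rw [this, Et_sum]
      refine Finset.sum_congr rfl fun j _ => ?_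
      rw [Et_const_mul]
      congr 1
      exact Et_cube t (A j) (z j)
    rw [hE2] at hE
    have hS : Real.sqrt (Real.exp 1 / D) * (σ * ∑ j ∈ J, c j * ((1 / 2) ^ (A j).card * ∑ i ∈ A j, val (z j i)))
        ≤ 1 := by
      refine le_trans ?_ hE
      rw [Finset.mul_sum, Finset.mul_sum]
      refine Finset.sum_le_sum fun j hj => ?_
      have h1 := prod_lower (z := z j) hD (hA j hj) σ hσ
      have h2 : ∏ i ∈ A j, ((1 + t * val (z j i)) / 2) =
          (1 / 2) ^ (A j).card * ∏ i ∈ A j, (1 + t * val (z j i)) := by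
        rw [← Finset.prod_const, ← Finset.prod_mul_distrib]
        exact Finset.prod_congr rfl fun i _ => by ring
      rw [h2]
      have h3 : 0 ≤ c j * (1 / 2) ^ (A j).card := mul_nonneg (hc j hj) (by positivity)
      have h4 := mul_le_mul_of_nonneg_left h1 h3
      calc Real.sqrt (Real.exp 1 / D) * (σ * (c j * ((1 / 2) ^ (A j).card * ∑ i ∈ A j, val (z j i))))
          = c j * (1 / 2) ^ (A j).card * (Real.sqrt (Real.exp 1 / D) * (σ * ∑ i ∈ A j, val (z j i))) := by ring
        _ ≤ _ := h4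
        _ = _ := by ring
    have hprod : Real.sqrt (Real.exp 1 / D) * Real.sqrt (D / Real.exp 1) = 1 := by
      rw [← Real.sqrt_mul (by positivity)]
      have : Real.exp 1 / D * (D / Real.exp 1) = 1 := by field_simp
      rw [this, Real.sqrt_one]
    have hpos : 0 < Real.sqrt (D / Real.exp 1) := Real.sqrt_pos.mpr (by positivity)
    set S := ∑ j ∈ J, c j * ((1 / 2) ^ (A j).card * ∑ i ∈ A j, val (z j i)) with hSdef
    have h5 : σ * S ≤ Real.sqrt (D / Real.exp 1) := by
      have h6 := mul_le_mul_of_nonneg_left hS hpos.le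
      have h7 : Real.sqrt (D / Real.exp 1) * (Real.sqrt (Real.exp 1 / D) * (σ * S)) = σ * S := by
        rw [← mul_assoc, mul_comm (Real.sqrt (D / Real.exp 1)), hprod, one_mul]
      linarith
    calc σ * (2 * S) = 2 * (σ * S) := by ring
      _ ≤ _ := by linarith

theorem conical_bound {f : (ι → ℤˣ) → ℝ} (hf : Bo f) {κ : Type*} (J : Finset κ) (c : κ → ℝ)
    (hc : ∀ j ∈ J, 0 ≤ c j) (A : κ → Finset ι) (z : κ → ι → ℤˣ) {D : ℕ}
    (hA : ∀ j ∈ J, (A j).card ≤ D) (τ : ℝ) (hτ : τ = 1 ∨ τ = -1)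
    (h : ∀ x, (1 + τ * f x) / 2 = ∑ j ∈ J, c j * cube (A j) (z j) x) :
    |lin f| ≤ 2 * Real.sqrt (D / Real.exp 1) := by
  have hg : Bo (fun x => τ * f x) := by
    intro x
    rcases hτ with h1 | h1 <;> rcases hf x with h2 | h2 <;> simp [h1, h2]
  have hl : lin (fun x => τ * f x) = τ * lin f := by
    rw [lin, lin, Finset.mul_sum]
    exact Finset.sum_congr rfl fun i _ => fh_const_mul τ f {i}
  have h1 := conical_bound_aux hg J c hc A z hA h 1 (Or.inl rfl)
  have h2 := conical_bound_aux hg J c hc A z hA h (-1) (Or.inr rfl)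
  rw [hl] at h1 h2
  rw [abs_le]
  rcases hτ with h3 | h3 <;> rw [h3] at h1 h2 <;> constructor <;> linarith

end

end Vale.Agent.P047
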