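import Mathlib

namespace Vale.Agent.P047

noncomputable section

def fourier {n : ℕ} (f : (Fin n → ℤˣ) → ℝ) (S : Finset (Fin n)) : ℝ :=
  (∑ x : Fin n → ℤˣ, f x * ∏ i ∈ S, ((x i : ℤ) : ℝ)) / 2 ^ n

def degree {n : ℕ} (f : (Fin n → ℤˣ) → ℝ) : ℕ :=
  (Finset.univ.filter (fun S : Finset (Fin n) => fourier f S ≠ 0)).sup Finset.card

def linearSum {n : ℕ} (f : (Fin n → ℤˣ) → ℝ) : ℝ :=
  ∑ i : Fin n, fourier f {i}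

def IsBoolean {n : ℕ} (f : (Fin n → ℤˣ) → ℝ) : Prop :=
  ∀ x, f x = 1 ∨ f x = -1

def M (d : ℕ) : ℝ :=
  sSup {a : ℝ | ∃ (n : ℕ) (f : (Fin n → ℤˣ) → ℝ),
    1 ≤ n ∧ IsBoolean f ∧ degree f ≤ d ∧ linearSum f = a}

end

end Vale.Agent.P047
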