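import Mathlib

namespace Vale.Agent.P047

open Set

lemma log_bound {h h' : ℝ → ℝ} {d : ℝ}
    (hder : ∀ s ∈ Ioo (-1 : ℝ) 1, HasDerivAt h (h' s) s)
    (hlt : ∀ s ∈ Ioo (-1 : ℝ) 1, |h s| < 1)
    (hineq : ∀ s ∈ Ioo (-1 : ℝ) 1, (1 - s ^ 2) * h' s ≤ d * (1 - h s ^ 2))
    {t : ℝ} (ht0 : 0 ≤ t) (ht1 : t < 1) :
    (Real.log (1 + h t) - Real.log (1 - h t)) - (Real.log (1 + h (-t)) - Real.log (1 - h (-t)))
      ≤ 2 * (d * (Real.log (1 + t) - Real.log (1 - t))) := by
  set ψ : ℝ → ℝ := fun s => (Real.log (1 + h s) - Real.log (1 - h s)) -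
    d * (Real.log (1 + s) - Real.log (1 - s)) with hψ
  have hD : ∀ s ∈ Ioo (-1 : ℝ) 1, HasDerivAt ψ
      ((h' s / (1 + h s) - (-h' s) / (1 - h s)) - d * (1 / (1 + s) - (-1) / (1 - s))) s := by
    intro s hs
    have h1 := abs_lt.mp (hlt s hs)
    have hs1 : (1 : ℝ) + s ≠ 0 := by linarith [hs.1]
    have hs2 : (1 : ℝ) - s ≠ 0 := by linarith [hs.2]
    have hh1 : (1 : ℝ) + h s ≠ 0 := by linarith [h1.1]
    have hh2 : (1 : ℝ) - h s ≠ 0 := by linarith [h1.2]
    have d1 : HasDerivAt (fun s => 1 + h s) (h' s) s := (hder s hs).const_add 1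
    have d2 : HasDerivAt (fun s => 1 - h s) (-h' s) s := (hder s hs).const_sub 1
    have d3 : HasDerivAt (fun s : ℝ => 1 + s) 1 s := (hasDerivAt_id s).const_add 1
    have d4 : HasDerivAt (fun s : ℝ => 1 - s) (-1) s := (hasDerivAt_id s).const_sub 1
    exact ((d1.log hh1).sub (d2.log hh2)).sub (((d3.log hs1).sub (d4.log hs2)).const_mul d)
  have hanti : AntitoneOn ψ (Ioo (-1 : ℝ) 1) := by
    apply antitoneOn_of_deriv_nonpos (convex_Ioo _ _)
    · exact fun s hs => (hD s hs).continuousAt.continuousWithinAt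
    · rw [interior_Ioo]
      exact fun s hs => (hD s hs).differentiableAt.differentiableWithinAt
    · rw [interior_Ioo]
      intro s hs
      rw [(hD s hs).deriv]
      have h1 := abs_lt.mp (hlt s hs)
      have hs1 : (0 : ℝ) < 1 + s := by linarith [hs.1]
      have hs2 : (0 : ℝ) < 1 - s := by linarith [hs.2]
      have hh1 : (0 : ℝ) < 1 + h s := by linarith [h1.1]
      have hh2 : (0 : ℝ) < 1 - h s := by linarith [h1.2]
      have e : ((h' s / (1 + h s) - (-h' s) / (1 - h s)) - d * (1 / (1 + s) - (-1) / (1 - s))) =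
          2 * ((1 - s ^ 2) * h' s - d * (1 - h s ^ 2)) / (((1 + h s) * (1 - h s)) * ((1 + s) * (1 - s))) := by
        field_simp
        ring
      rw [e]
      apply div_nonpos_of_nonpos_of_nonneg
      · linarith [hineq s hs]
      · positivity
  have hm1 : -t ∈ Ioo (-1 : ℝ) 1 := ⟨by linarith, by linarith⟩
  have hm2 : t ∈ Ioo (-1 : ℝ) 1 := ⟨by linarith, by linarith⟩
  have := hanti hm1 hm2 (by linarith)
  simp only [hψ] at this
  have e1 : (1 : ℝ) + -t = 1 - t := by ring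
  have e2 : (1 : ℝ) - -t = 1 + t := by ring
  rw [e1, e2] at this
  linarith

lemma two_point {a b r : ℝ} (ha : |a| < 1) (hb : |b| < 1) (hr : 1 ≤ r)
    (h : (Real.log (1 + a) - Real.log (1 - a)) - (Real.log (1 + b) - Real.log (1 - b))
      ≤ 2 * Real.log r) : (a - b) / 2 ≤ (r - 1) / (r + 1) := by
  have ha' := abs_lt.mp ha
  have hb' := abs_lt.mp hb
  have a1 : 0 < 1 + a := by linarith
  have a2 : 0 < 1 - a := by linarith
  have b1 : 0 < 1 + b := by linarith
  have b2 : 0 < 1 - b := by linarith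
  have hr0 : 0 < r := by linarith
  have hXY : (1 + a) * (1 - b) ≤ r ^ 2 * ((1 - a) * (1 + b)) := by
    have h2 : Real.log ((1 + a) * (1 - b)) ≤ Real.log (r ^ 2 * ((1 - a) * (1 + b))) := by
      rw [Real.log_mul a1.ne' b2.ne', Real.log_mul (by positivity) (by positivity),
        Real.log_mul a2.ne' b1.ne', Real.log_pow]
      push_cast
      linarith
    exact (Real.log_le_log_iff (by positivity) (by positivity)).mp h2
  set p := Real.sqrt ((1 + a) * (1 - b)) with hp
  set q := Real.sqrt ((1 - a) * (1 + b)) with hq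
  have hp0 : 0 ≤ p := Real.sqrt_nonneg _
  have hq0 : 0 ≤ q := Real.sqrt_nonneg _
  have hp2 : p ^ 2 = (1 + a) * (1 - b) := Real.sq_sqrt (by positivity)
  have hq2 : q ^ 2 = (1 - a) * (1 + b) := Real.sq_sqrt (by positivity)
  have hpq : p ≤ r * q := by
    apply le_of_sq_le_sq _ (by positivity)
    rw [mul_pow, hp2, hq2]
    exact hXY
  have hsum : p + q ≤ 2 := by
    have h3 : p * q ≤ 1 + a * b := by
      apply le_of_sq_le_sq _ (by nlinarith)
      rw [mul_pow, hp2, hq2]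
      nlinarith [sq_nonneg (a + b)]
    apply le_of_sq_le_sq _ (by norm_num)
    nlinarith
  have hab : a - b = (p - q) * (p + q) / 2 := by
    have : (p - q) * (p + q) = p ^ 2 - q ^ 2 := by ring
    rw [this, hp2, hq2]; ring
  have h4 : (p - q) * (r + 1) ≤ (r - 1) * (p + q) := by nlinarith
  rw [hab, le_div_iff₀ (by linarith)]
  have h5 : (p - q) * (p + q) * (r + 1) ≤ (r - 1) * (p + q) ^ 2 := by
    have := mul_le_mul_of_nonneg_right h4 (by linarith : 0 ≤ p + q)
    nlinarith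
  have h6 : (r - 1) * (p + q) ^ 2 ≤ (r - 1) * 4 := by
    apply mul_le_mul_of_nonneg_left _ (by linarith)
    nlinarith
  nlinarith
where
  le_of_sq_le_sq {x y : ℝ} (h : x ^ 2 ≤ y ^ 2) (hy : 0 ≤ y) : x ≤ y := by
    exact le_of_abs_le (abs_le_of_sq_le_sq h hy)

theorem tanh_bound {h h' : ℝ → ℝ} {d : ℕ}
    (hder : ∀ s ∈ Ioo (-1 : ℝ) 1, HasDerivAt h (h' s) s)
    (hle : ∀ s ∈ Ioo (-1 : ℝ) 1, |h s| ≤ 1)
    (hineq : ∀ s ∈ Ioo (-1 : ℝ) 1, (1 - s ^ 2) * |h' s| ≤ d * (1 - h s ^ 2))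
    {t : ℝ} (ht0 : 0 ≤ t) (ht1 : t < 1) :
    (h t - h (-t)) / 2 ≤ (((1 + t) / (1 - t)) ^ d - 1) / (((1 + t) / (1 - t)) ^ d + 1) := by
  set r := ((1 + t) / (1 - t)) ^ d with hr
  have hx1 : 1 ≤ (1 + t) / (1 - t) := by
    rw [le_div_iff₀ (by linarith)]; linarith
  have hr1 : 1 ≤ r := one_le_pow₀ hx1
  have key : ∀ c : ℝ, 0 < c → c < 1 → c * ((h t - h (-t)) / 2) ≤ (r - 1) / (r + 1) := by
    intro c hc0 hc1
    have hlt : ∀ s ∈ Ioo (-1 : ℝ) 1, |c * h s| < 1 := by
      intro s hs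
      rw [abs_mul, abs_of_pos hc0]
      nlinarith [hle s hs, abs_nonneg (h s)]
    have hlog := log_bound (h := fun s => c * h s) (h' := fun s => c * h' s) (d := d)
      (fun s hs => (hder s hs).const_mul c) hlt (by
        intro s hs
        have h1 := hineq s hs
        have h2 : (1 - s ^ 2) * (c * h' s) ≤ c * ((1 - s ^ 2) * |h' s|) := by
          have : 0 ≤ 1 - s ^ 2 := by nlinarith [hs.1, hs.2]
          have h3 := mul_le_mul_of_nonneg_left (le_abs_self (h' s)) this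
          nlinarith
        have h3 := abs_le.mp (hle s hs)
        have h5 : h s ^ 2 ≤ 1 := by nlinarith
        calc (1 - s ^ 2) * (c * h' s) ≤ c * ((1 - s ^ 2) * |h' s|) := h2
          _ ≤ c * (d * (1 - h s ^ 2)) := mul_le_mul_of_nonneg_left h1 hc0.le
          _ = d * (c * (1 - h s ^ 2)) := by ring
          _ ≤ d * (1 - (c * h s) ^ 2) := by
              apply mul_le_mul_of_nonneg_left _ (Nat.cast_nonneg d)
              have h6 : 0 ≤ h s ^ 2 := sq_nonneg _
              have : (c * h s) ^ 2 = c ^ 2 * h s ^ 2 := by ring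
              rw [this]
              nlinarith [mul_nonneg hc0.le (mul_nonneg (sub_nonneg.mpr hc1.le) h6)]) ht0 ht1
    have := two_point (r := r) (hlt t ⟨by linarith, ht1⟩) (hlt (-t) ⟨by linarith, by linarith⟩) hr1 (by
      refine hlog.trans (le_of_eq ?_)
      rw [hr, Real.log_pow, Real.log_div (by linarith) (by linarith)])
    calc c * ((h t - h (-t)) / 2) = (c * h t - c * h (-t)) / 2 := by ring
      _ ≤ _ := this
  by_contra hcon
  push Not at hcon
  set L := (h t - h (-t)) / 2 with hL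
  set τ := (r - 1) / (r + 1) with hτ
  have hτ0 : 0 ≤ τ := div_nonneg (by linarith) (by linarith)
  have hL0 : 0 < L := lt_of_le_of_lt hτ0 hcon
  have h1 := key ((τ + L) / (2 * L)) (by positivity) (by
    rw [div_lt_one (by positivity)]; linarith)
  have h2 : (τ + L) / (2 * L) * L = (τ + L) / 2 := by field_simp
  rw [h2] at h1
  linarith

end Vale.Agent.P047
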