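import Mathlib

namespace Vale.Agent.P047

open Finset Complex

noncomputable section

def th (d k : ℕ) : ℝ := (2 * k + 1) * Real.pi / (2 * d)

def zz (d k : ℕ) : ℂ := Complex.exp ((th d k : ℝ) * Complex.I)

def lam (d k : ℕ) : ℝ := 1 / (4 * d * Real.sin (th d k / 2) ^ 2)

def UU (d : ℕ) (j : ℤ) : ℂ := ∑ k ∈ range (2 * d), zz d k ^ j / (zz d k - 1) ^ 2

lemma zz_ne_zero (d k : ℕ) : zz d k ≠ 0 := Complex.exp_ne_zero _

lemma zz_pow_d {d : ℕ} (hd : 0 < d) (k : ℕ) : zz d k ^ d = Complex.I * (-1) ^ k := by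
  have hd' : (d : ℂ) ≠ 0 := by exact_mod_cast hd.ne'
  rw [zz, ← Complex.exp_nat_mul]
  have : (d : ℂ) * ((th d k : ℝ) * Complex.I) = (k : ℂ) * (Real.pi * Complex.I) + Real.pi / 2 * Complex.I := by
    rw [th]
    push_cast
    field_simp
  rw [this, Complex.exp_add, Complex.exp_nat_mul, Complex.exp_pi_mul_I, Complex.exp_pi_div_two_mul_I]
  ring

lemma zz_pow_2d {d : ℕ} (hd : 0 < d) (k : ℕ) : zz d k ^ (2 * d) = -1 := by
  rw [mul_comm, pow_mul, zz_pow_d hd k, mul_pow, Complex.I_sq, ← pow_mul, mul_comm k 2, pow_mul]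
  simp

lemma zz_ne_one {d : ℕ} (hd : 0 < d) (k : ℕ) : zz d k - 1 ≠ 0 := by
  intro h
  have h1 : zz d k = 1 := by linear_combination h
  have := zz_pow_2d hd k
  rw [h1, one_pow] at this
  norm_num at this

lemma zz_reflect {d : ℕ} (hd : 0 < d) {k : ℕ} (hk : k < 2 * d) :
    zz d (2 * d - 1 - k) = (zz d k)⁻¹ := by
  have hd' : (d : ℂ) ≠ 0 := by exact_mod_cast hd.ne'
  rw [zz, zz, ← Complex.exp_neg]
  have : ((th d (2 * d - 1 - k) : ℝ) : ℂ) * Complex.I =
      -(((th d k : ℝ) : ℂ) * Complex.I) + 2 * Real.pi * Complex.I := by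
    rw [th, th]
    have h2 : ((2 * d - 1 - k : ℕ) : ℝ) = 2 * d - 1 - k := by
      have : 2 * d - 1 - k = 2 * d - (1 + k) := by omega
      rw [this, Nat.cast_sub (by omega)]
      push_cast; ring
    rw [h2]
    push_cast
    field_simp
    ring
  rw [this, Complex.exp_add, Complex.exp_two_pi_mul_I, mul_one]

lemma UU_diff {d : ℕ} (hd : 0 < d) (j : ℤ) :
    UU d j - 2 * UU d (j + 1) + UU d (j + 2) = ∑ k ∈ range (2 * d), zz d k ^ j := by
  simp only [UU]
  rw [Finset.mul_sum, ← Finset.sum_sub_distrib, ← Finset.sum_add_distrib]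
  refine Finset.sum_congr rfl fun k _ => ?_
  have h := zz_ne_one hd k
  rw [zpow_add₀ (zz_ne_zero d k), zpow_add₀ (zz_ne_zero d k), zpow_one, zpow_two]
  field_simp
  ring

lemma sum_zz_eq_zero {d : ℕ} (hd : 0 < d) {j : ℕ} (h1 : 1 ≤ j) (h2 : j < 2 * d) :
    ∑ k ∈ range (2 * d), zz d k ^ (j : ℤ) = 0 := by
  have hd' : (d : ℂ) ≠ 0 := by exact_mod_cast hd.ne'
  have hd2 : (d : ℝ) ≠ 0 := by exact_mod_cast hd.ne'
  set w : ℂ := Complex.exp (Real.pi * j / d * Complex.I) with hw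
  have hz : ∀ k, zz d k ^ (j : ℤ) = zz d 0 ^ j * w ^ k := by
    intro k
    rw [zpow_natCast, zz, zz, hw, ← Complex.exp_nat_mul, ← Complex.exp_nat_mul, ← Complex.exp_nat_mul,
      ← Complex.exp_add]
    congr 1
    rw [th, th]
    push_cast
    field_simp
    ring
  simp_rw [hz]
  rw [← Finset.mul_sum]
  have hw1 : w ≠ 1 := by
    intro h
    rw [hw, Complex.exp_eq_one_iff] at h
    obtain ⟨n, hn⟩ := h
    have hI : Complex.I ≠ 0 := Complex.I_ne_zero
    have hpi : (Real.pi : ℂ) ≠ 0 := by exact_mod_cast Real.pi_ne_zero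
    have h3 : (Real.pi : ℂ) * j / d = n * (2 * Real.pi) := by
      have := mul_right_cancel₀ hI (by linear_combination hn :
        (Real.pi : ℂ) * j / d * Complex.I = n * (2 * Real.pi) * Complex.I)
      exact this
    have h4 : (j : ℂ) = n * (2 * d) := by
      field_simp at h3
      linear_combination h3
    have h5 : (j : ℤ) = n * (2 * d) := by exact_mod_cast h4
    have h6 : (0 : ℤ) < n := by
      by_contra hcon
      push Not at hcon
      have : n * (2 * (d : ℤ)) ≤ 0 := mul_nonpos_of_nonpos_of_nonneg hcon (by positivity)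
      omega
    have h7 : (2 * (d : ℤ)) ≤ n * (2 * d) := by nlinarith [show (0 : ℤ) < d by exact_mod_cast hd]
    omega
  have hw2 : w ^ (2 * d) = 1 := by
    rw [hw, ← Complex.exp_nat_mul, Complex.exp_eq_one_iff]
    refine ⟨j, ?_⟩
    push_cast
    field_simp
  have hg : ∑ i ∈ range (2 * d), w ^ i = 0 := by
    have := geom_sum_mul w (2 * d)
    rw [hw2, sub_self] at this
    rcases mul_eq_zero.mp this with h | h
    · exact h
    · exact absurd (by linear_combination h) hw1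
  rw [hg, mul_zero]

lemma UU_reflect {d : ℕ} (hd : 0 < d) (j : ℤ) : UU d j = UU d (2 - j) := by
  rw [UU, UU, ← Finset.sum_range_reflect]
  refine Finset.sum_congr rfl fun k hk => ?_
  rw [zz_reflect hd (Finset.mem_range.mp hk)]
  have h := zz_ne_one hd k
  have h0 := zz_ne_zero d k
  have h3 : (zz d k)⁻¹ - 1 = -(zz d k - 1) * (zz d k)⁻¹ := by field_simp; ring
  rw [h3, zpow_sub₀ h0, inv_zpow]
  have h4 : zz d k ^ j ≠ 0 := zpow_ne_zero _ h0
  rw [mul_pow]
  norm_cast
  field_simp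

lemma UU_shift {d : ℕ} (hd : 0 < d) (j : ℤ) : UU d (j + 2 * d) = - UU d j := by
  rw [UU, UU, ← Finset.sum_neg_distrib]
  refine Finset.sum_congr rfl fun k _ => ?_
  have h : zz d k ^ (2 * (d : ℤ)) = -1 := by
    have := zz_pow_2d hd k
    exact_mod_cast this
  rw [zpow_add₀ (zz_ne_zero d k), h]
  ring

lemma UU_step {d : ℕ} (hd : 0 < d) : ∀ j : ℕ, 1 ≤ j → j ≤ 2 * d →
    UU d (j + 1) - UU d j = d := by
  intro j h1
  induction j, h1 using Nat.le_induction with
  | base =>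
    intro _
    have h := UU_diff hd 0
    have h2 := UU_reflect hd 0
    simp only [zpow_zero, Finset.sum_const, Finset.card_range, nsmul_eq_mul, mul_one] at h
    push_cast at h ⊢
    norm_num at h h2 ⊢
    linear_combination h / 2 - h2 / 2
  | succ j hj ih =>
    intro h2
    have h3 := ih (by omega)
    have h4 := UU_diff hd j
    rw [sum_zz_eq_zero hd hj (by omega)] at h4
    push_cast at h3 h4 ⊢
    have e : (j : ℤ) + 1 + 1 = (j : ℤ) + 2 := by ring
    rw [e]
    linear_combination h3 + h4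

lemma UU_formula {d : ℕ} (hd : 0 < d) : ∀ j : ℕ, 1 ≤ j → j ≤ 2 * d + 1 →
    UU d j = UU d 1 + (j - 1) * d := by
  intro j h1
  induction j, h1 using Nat.le_induction with
  | base => intro _; simp
  | succ j hj ih =>
    intro h2
    have h3 := ih (by omega)
    have h4 := UU_step hd j hj (by omega)
    push_cast at h4 ⊢
    linear_combination h3 + h4

lemma UU_one {d : ℕ} (hd : 0 < d) : UU d 1 = -(d : ℂ) ^ 2 := by
  have h1 := UU_formula hd (2 * d + 1) (by omega) le_rfl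
  have h2 := UU_shift hd 1
  have e : ((2 * d + 1 : ℕ) : ℤ) = 1 + 2 * d := by push_cast; ring
  rw [e, h2] at h1
  push_cast at h1
  linear_combination -(1 : ℂ) / 2 * h1

lemma UU_eq {d : ℕ} (hd : 0 < d) {m : ℤ} (h1 : -(d : ℤ) ≤ m) (h2 : m ≤ d) :
    UU d (d + m + 1) = d * m := by
  obtain ⟨j, hj⟩ : ∃ j : ℕ, (j : ℤ) = d + m + 1 := ⟨(d + m + 1).toNat, by omega⟩
  have h3 := UU_formula hd j (by omega) (by omega)
  rw [UU_one hd] at h3
  rw [← hj, h3]
  have : (j : ℂ) = d + m + 1 := by exact_mod_cast hj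
  rw [this]; ring

lemma sin_ne_zero {d : ℕ} {k : ℕ} (hk : k < 2 * d) : 0 < Real.sin (th d k / 2) := by
  have hd : (0 : ℝ) < d := by
    have : 0 < d := by omega
    exact_mod_cast this
  apply Real.sin_pos_of_pos_of_lt_pi
  · rw [th]; positivity
  · rw [th]
    have h : (2 * (k : ℝ) + 1) < 4 * d := by
      have : 2 * k + 1 < 4 * d := by omega
      exact_mod_cast this
    rw [div_div, div_lt_iff₀ (by positivity)]
    nlinarith [Real.pi_pos]

lemma lam_eq {d : ℕ} {k : ℕ} (hk : k < 2 * d) :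
    (lam d k : ℂ) = -zz d k / (d * (zz d k - 1) ^ 2) := by
  have hd : 0 < d := by omega
  have hd' : (d : ℂ) ≠ 0 := by exact_mod_cast hd.ne'
  have hs := sin_ne_zero hk
  have hs' : ((Real.sin (th d k / 2) : ℝ) : ℂ) ≠ 0 := by exact_mod_cast hs.ne'
  have hz : zz d k - 1 = 2 * Complex.I * (Real.sin (th d k / 2) : ℝ) *
      Complex.exp ((th d k / 2 : ℝ) * Complex.I) := by
    have e1 : zz d k = Complex.exp ((th d k / 2 : ℝ) * Complex.I) * Complex.exp ((th d k / 2 : ℝ) * Complex.I) := by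
      rw [← Complex.exp_add, zz]
      congr 1
      push_cast
      ring
    rw [e1, Complex.ofReal_sin, Complex.sin]
    have e2 : Complex.exp ((th d k / 2 : ℝ) * Complex.I) * Complex.exp (-((th d k / 2 : ℝ) : ℂ) * Complex.I) = 1 := by
      rw [← Complex.exp_add]
      simp
    linear_combination e2 - (Complex.exp (-((th d k / 2 : ℝ) : ℂ) * Complex.I) - Complex.exp ((th d k / 2 : ℝ) * Complex.I)) *
      Complex.exp ((th d k / 2 : ℝ) * Complex.I) * Complex.I_sq
  have e1 : zz d k = Complex.exp ((th d k / 2 : ℝ) * Complex.I) ^ 2 := by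
    rw [← Complex.exp_nat_mul, zz]
    congr 1
    push_cast
    ring
  have he : Complex.exp ((th d k / 2 : ℝ) * Complex.I) ≠ 0 := Complex.exp_ne_zero _
  rw [hz, e1, lam]
  push_cast
  rw [mul_pow, mul_pow, mul_pow, Complex.I_sq]
  rw [Complex.ofReal_sin] at hs'
  push_cast at hs' he
  field_simp
  ring

theorem riesz_exp {d : ℕ} (hd : 0 < d) {m : ℤ} (h1 : -(d : ℤ) ≤ m) (h2 : m ≤ d) :
    ∑ k ∈ range (2 * d), ((-1 : ℂ) ^ k * lam d k) * zz d k ^ m = Complex.I * m := by
  have hd' : (d : ℂ) ≠ 0 := by exact_mod_cast hd.ne'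
  have h : ∀ k ∈ range (2 * d), ((-1 : ℂ) ^ k * lam d k) * zz d k ^ m =
      Complex.I / d * (zz d k ^ ((d : ℤ) + m + 1) / (zz d k - 1) ^ 2) := by
    intro k hk
    rw [lam_eq (Finset.mem_range.mp hk)]
    have e1 : (-1 : ℂ) ^ k = -Complex.I * zz d k ^ d := by
      rw [zz_pow_d hd k]
      linear_combination ((-1 : ℂ) ^ k) * Complex.I_sq
    rw [e1, zpow_add₀ (zz_ne_zero d k), zpow_add₀ (zz_ne_zero d k), zpow_one, zpow_natCast]
    have := zz_ne_one hd k
    field_simp
  rw [Finset.sum_congr rfl h, ← Finset.mul_sum]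
  have := UU_eq hd h1 h2
  rw [UU] at this
  rw [this]
  field_simp

end

end Vale.Agent.P047
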