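import Mathlib
import Vale.Agent.P047.Influence
import Vale.Agent.P047.Riesz

namespace Vale.Agent.P047

open Finset

noncomputable section

set_option linter.unusedSectionVars false

lemma th_reflect {d k : ℕ} (hk : k < 2 * d) : th d (2 * d - 1 - k) = 2 * Real.pi - th d k := by
  have hd : (d : ℝ) ≠ 0 := by
    have : d ≠ 0 := by omega
    exact_mod_cast this
  rw [th, th]
  have h2 : ((2 * d - 1 - k : ℕ) : ℝ) = 2 * d - 1 - k := by
    have : 2 * d - 1 - k = 2 * d - (1 + k) := by omega
    rw [this, Nat.cast_sub (by omega)]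
    push_cast; ring
  rw [h2]
  field_simp
  ring

lemma sin_th_reflect {d k : ℕ} (hk : k < 2 * d) :
    Real.sin (th d (2 * d - 1 - k)) = - Real.sin (th d k) := by
  rw [th_reflect hk, Real.sin_two_pi_sub]

lemma lam_reflect {d k : ℕ} (hk : k < 2 * d) : lam d (2 * d - 1 - k) = lam d k := by
  rw [lam, lam, th_reflect hk]
  have : (2 * Real.pi - th d k) / 2 = Real.pi - th d k / 2 := by ring
  rw [this, Real.sin_pi_sub]

lemma lam_pos {d k : ℕ} (hk : k < 2 * d) : 0 < lam d k := by
  have hs := sin_ne_zero hk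
  have hd : (0 : ℝ) < d := by
    have : 0 < d := by omega
    exact_mod_cast this
  rw [lam]
  positivity

lemma sum_lam {d : ℕ} (hd : 0 < d) : ∑ k ∈ range (2 * d), lam d k = d := by
  have hd' : (d : ℂ) ≠ 0 := by exact_mod_cast hd.ne'
  have h : ((∑ k ∈ range (2 * d), lam d k : ℝ) : ℂ) = d := by
    push_cast
    have h2 : ∀ k ∈ range (2 * d), (lam d k : ℂ) = -(1 / d) * (zz d k ^ (1 : ℤ) / (zz d k - 1) ^ 2) := by
      intro k hk
      rw [lam_eq (Finset.mem_range.mp hk), zpow_one]
      have := zz_ne_one hd k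
      field_simp
    rw [Finset.sum_congr rfl h2, ← Finset.mul_sum]
    have := UU_one hd
    rw [UU] at this
    rw [this]
    field_simp
  exact_mod_cast h

lemma riesz_sin_pow {d : ℕ} (hd : 0 < d) {j : ℕ} (hj : j ≤ d) :
    ∑ k ∈ range (2 * d), ((-1 : ℝ) ^ k * lam d k) * Real.sin (th d k) ^ j = if j = 1 then 1 else 0 := by
  set b : ℕ → ℂ := fun l => (Complex.I / 2) ^ j * ((j.choose l : ℕ) : ℂ) * (-1) ^ l with hb
  have hsin : ∀ x : ℝ, (Complex.sin x) ^ j = ∑ l ∈ range (j + 1), b l *
      Complex.exp (((2 * l - j : ℤ) : ℂ) * (x * Complex.I)) := by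
    intro x
    have h1 : Complex.sin x = (Complex.I / 2) * (-Complex.exp (x * Complex.I) + Complex.exp (-x * Complex.I)) := by
      rw [Complex.sin]; ring
    rw [h1, mul_pow, add_pow, Finset.mul_sum]
    refine Finset.sum_congr rfl fun l hl => ?_
    have hl' : l ≤ j := by
      have := Finset.mem_range.mp hl; omega
    have h2 : Complex.exp (((2 * l - j : ℤ) : ℂ) * (x * Complex.I)) =
        Complex.exp (x * Complex.I) ^ l * Complex.exp (-x * Complex.I) ^ (j - l) := by
      rw [← Complex.exp_nat_mul, ← Complex.exp_nat_mul, ← Complex.exp_add]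
      congr 1
      rw [Nat.cast_sub hl']
      push_cast
      ring
    rw [h2, hb]
    rw [neg_pow (Complex.exp (x * Complex.I))]
    ring
  have hsum : ((∑ k ∈ range (2 * d), ((-1 : ℝ) ^ k * lam d k) * Real.sin (th d k) ^ j : ℝ) : ℂ) =
      ∑ l ∈ range (j + 1), b l * (Complex.I * ((2 * l - j : ℤ) : ℂ)) := by
    push_cast
    simp_rw [hsin, Finset.mul_sum]
    rw [Finset.sum_comm]
    refine Finset.sum_congr rfl fun l hl => ?_
    have hl' : l ≤ j := by
      have := Finset.mem_range.mp hl; omega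
    have := riesz_exp hd (m := 2 * l - j) (by omega) (by omega)
    push_cast at this ⊢
    rw [← this, Finset.mul_sum]
    refine Finset.sum_congr rfl fun k _ => ?_
    have e : Complex.exp ((2 * (l : ℂ) - j) * ((th d k : ℝ) * Complex.I)) = zz d k ^ (2 * (l : ℤ) - j) := by
      rw [zz, ← Complex.exp_int_mul]
      push_cast
      rfl
    rw [e]; ring
  have hder : HasDerivAt (fun x : ℝ => (Complex.sin x) ^ j)
      (∑ l ∈ range (j + 1), b l * (Complex.I * ((2 * l - j : ℤ) : ℂ))) (0 : ℝ) := by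
    have h : (fun x : ℝ => (Complex.sin x) ^ j) = fun x : ℝ => ∑ l ∈ range (j + 1), b l *
      Complex.exp (((2 * l - j : ℤ) : ℂ) * (x * Complex.I)) := funext hsin
    rw [h]
    refine HasDerivAt.fun_sum fun l _ => ?_
    have h1 : HasDerivAt (fun x : ℝ => (((2 * l - j : ℤ) : ℂ) * (x * Complex.I)))
        (((2 * l - j : ℤ) : ℂ) * (1 * Complex.I)) (0 : ℝ) := by
      have h0 : HasDerivAt (fun x : ℝ => (x : ℂ)) 1 (0 : ℝ) := Complex.ofRealCLM.hasDerivAt
      exact (h0.mul_const Complex.I).const_mul _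
    have h2 := (h1.cexp).const_mul (b l)
    have e3 : b l * (Complex.I * ((2 * l - j : ℤ) : ℂ)) =
        b l * (Complex.exp (((2 * l - j : ℤ) : ℂ) * (((0 : ℝ) : ℂ) * Complex.I)) *
          (((2 * l - j : ℤ) : ℂ) * (1 * Complex.I))) := by
      rw [Complex.ofReal_zero, zero_mul, mul_zero, Complex.exp_zero]
      ring
    rw [e3]
    exact h2
  have hder2 : HasDerivAt (fun x : ℝ => (Complex.sin x) ^ j)
      ((j : ℂ) * (Complex.sin (0 : ℝ)) ^ (j - 1) * Complex.cos (0 : ℝ)) (0 : ℝ) := by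
    have h1 : HasDerivAt (fun x : ℝ => Complex.sin x) (Complex.cos (0 : ℝ)) (0 : ℝ) := by
      have := (Complex.hasDerivAt_sin ((0 : ℝ) : ℂ)).comp_ofReal
      exact this
    exact h1.pow j
  have huniq := hder.unique hder2
  have h : ((∑ k ∈ range (2 * d), ((-1 : ℝ) ^ k * lam d k) * Real.sin (th d k) ^ j : ℝ) : ℂ) =
      ((if j = 1 then 1 else 0 : ℝ) : ℂ) := by
    rw [hsum, huniq]
    rcases j with _ | _ | j
    · simp
    · simp
    · simp
  exact_mod_cast h

variable {ι : Type*} [Fintype ι] [DecidableEq ι]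

lemma riesz_poly {d : ℕ} (hd : 0 < d) {f : (ι → ℤˣ) → ℝ} (hf : DegLE f d) :
    lin f = ∑ k ∈ range (2 * d), ((-1 : ℝ) ^ k * lam d k) * Et (Real.sin (th d k)) f := by
  simp_rw [Et_eq, Finset.mul_sum]
  rw [Finset.sum_comm]
  have h : ∀ T : Finset ι, ∑ k ∈ range (2 * d), ((-1 : ℝ) ^ k * lam d k) *
      (fh f T * Real.sin (th d k) ^ T.card) = if T.card = 1 then fh f T else 0 := by
    intro T
    rcases le_or_gt T.card d with h1 | h1
    · have h2 := riesz_sin_pow hd h1
      calc ∑ k ∈ range (2 * d), ((-1 : ℝ) ^ k * lam d k) * (fh f T * Real.sin (th d k) ^ T.card)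
          = fh f T * ∑ k ∈ range (2 * d), ((-1 : ℝ) ^ k * lam d k) * Real.sin (th d k) ^ T.card := by
            rw [Finset.mul_sum]
            exact Finset.sum_congr rfl fun k _ => by ring
        _ = _ := by
            rw [h2]
            split_ifs <;> simp
    · rw [hf T h1]
      simp
  simp_rw [h]
  rw [lin, ← Finset.sum_filter]
  refine Finset.sum_nbij (fun i => {i}) ?_ ?_ ?_ ?_
  · intro i _; simp
  · intro i _ j _ h
    simpa using h
  · intro T hT
    obtain ⟨a, rfl⟩ := Finset.card_eq_one.mp (by simpa using hT)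
    simp
  · intro i _; rfl

end

end Vale.Agent.P047
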