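import Mathlib
import Vale.Agent.P047.Upper
import Vale.Agent.P047.Tanh

namespace Vale.Agent.P047

open Finset

noncomputable section

set_option linter.unusedSectionVars false

lemma frac_mono {s y : ℝ} (h : s ≤ y) (hy : y < 1) :
    (1 + s) / (1 - s) ≤ (1 + y) / (1 - y) := by
  rw [div_le_div_iff₀ (by linarith) (by linarith)]
  nlinarith

lemma r_bound_five {d : ℕ} (hd : 5 ≤ d) :
    ((1 + Real.pi / (2 * d)) / (1 - Real.pi / (2 * d))) ^ d ≤ 28 := by
  have hd5 : (5 : ℝ) ≤ d := by exact_mod_cast hd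
  have hpi := Real.pi_lt_d4
  have hpi0 := Real.pi_pos
  set y := Real.pi / (2 * d) with hy
  have hy0 : 0 < y := by positivity
  have hy1 : y ≤ 0.31416 := by
    rw [hy, div_le_iff₀ (by positivity)]
    nlinarith
  set X := (1 + y) / (1 - y) with hX
  have hXpos : 0 < X := div_pos (by linarith) (by linarith)
  have hX1 : 1 ≤ X := by rw [hX, le_div_iff₀ (by linarith)]; linarith
  have hsX : 0 < Real.sqrt X := Real.sqrt_pos.mpr hXpos
  have hlog : Real.log X ≤ Real.sqrt X - (Real.sqrt X)⁻¹ := by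
    have h1 : Real.log X = 2 * Real.log (Real.sqrt X) := by
      rw [Real.log_sqrt hXpos.le]; ring
    have h2 : Real.log (Real.sqrt X) ≤ Real.sinh (Real.log (Real.sqrt X)) := by
      rw [Real.self_le_sinh_iff]
      apply Real.log_nonneg
      rw [Real.one_le_sqrt]; exact hX1
    rw [Real.sinh_log hsX] at h2
    rw [h1]; linarith
  set w := Real.sqrt (1 - y ^ 2) with hw
  have hw0 : 0.949 ≤ w := by
    rw [hw]
    apply Real.le_sqrt_of_sq_le
    nlinarith
  have hwpos : 0 < w := by linarith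
  have hsqX : Real.sqrt X = (1 + y) / w := by
    rw [Real.sqrt_eq_iff_mul_self_eq hXpos.le (by positivity)]
    have : w * w = 1 - y ^ 2 := Real.mul_self_sqrt (by nlinarith)
    rw [div_mul_div_comm, this, hX]
    have e1 : (1 : ℝ) - y ≠ 0 := by linarith
    have e2 : (1 : ℝ) - y ^ 2 ≠ 0 := by nlinarith
    field_simp
    ring
  have hlog2 : Real.log X ≤ 2 * y / w := by
    refine hlog.trans (le_of_eq ?_)
    rw [hsqX, inv_div]
    have hww : w ^ 2 = 1 - y ^ 2 := Real.sq_sqrt (by nlinarith)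
    have e1 : (1 : ℝ) + y ≠ 0 := by linarith
    field_simp
    rw [hww]; ring
  have hd0 : (0 : ℝ) < d := by linarith
  have h3 : d * Real.log X ≤ 3.3108 := by
    calc d * Real.log X ≤ d * (2 * y / w) := mul_le_mul_of_nonneg_left hlog2 hd0.le
      _ = Real.pi / w := by rw [hy]; field_simp
      _ ≤ 3.3108 := by
        rw [div_le_iff₀ hwpos]
        nlinarith
  have h4 : X ^ d = Real.exp (d * Real.log X) := by
    rw [← Real.rpow_natCast, Real.rpow_def_of_pos hXpos, mul_comm]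
  rw [h4]
  have he1 : Real.exp 1 < 2.7182818286 := Real.exp_one_lt_d9
  have he2 : Real.exp 0.0777 ≤ 1 / 0.9223 := by
    have h5 := Real.add_one_le_exp (-0.0777 : ℝ)
    rw [Real.exp_neg] at h5
    have h6 : 0 < Real.exp (0.0777 : ℝ) := Real.exp_pos _
    rw [le_div_iff₀ (by norm_num)]
    have h7 : (-0.0777 + 1 : ℝ) * Real.exp 0.0777 ≤ (Real.exp 0.0777)⁻¹ * Real.exp 0.0777 :=
      mul_le_mul_of_nonneg_right h5 h6.le
    rw [inv_mul_cancel₀ h6.ne'] at h7
    linarith
  calc Real.exp (d * Real.log X) ≤ Real.exp 3.3108 := Real.exp_le_exp.mpr h3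
    _ = Real.exp 1 ^ 3 * Real.exp 0.0777 ^ 4 := by
        rw [← Real.exp_nat_mul, ← Real.exp_nat_mul, ← Real.exp_add]
        norm_num
    _ ≤ 2.7182818286 ^ 3 * (1 / 0.9223) ^ 4 := by
        apply mul_le_mul
        · exact pow_le_pow_left₀ (Real.exp_pos _).le he1.le 3
        · exact pow_le_pow_left₀ (Real.exp_pos _).le he2 4
        · positivity
        · positivity
    _ ≤ 28 := by norm_num

lemma r_bound {d : ℕ} (hd : 3 ≤ d) :
    ((1 + Real.sin (Real.pi / (2 * d))) / (1 - Real.sin (Real.pi / (2 * d)))) ^ d ≤ 28 := by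
  have hpi := Real.pi_lt_d4
  have hpi0 := Real.pi_pos
  rcases Nat.lt_or_ge d 4 with h3 | h4
  · have : d = 3 := by omega
    subst this
    have e : Real.pi / (2 * ((3 : ℕ) : ℝ)) = Real.pi / 6 := by push_cast; ring
    rw [e, Real.sin_pi_div_six]
    norm_num
  · have hd4 : (4 : ℝ) ≤ d := by exact_mod_cast h4
    have hy1 : Real.pi / (2 * d) ≤ 0.3927 := by
      rw [div_le_iff₀ (by positivity)]
      nlinarith
    have hy0 : 0 < Real.pi / (2 * d) := by positivity
    have hs1 : Real.sin (Real.pi / (2 * d)) ≤ Real.pi / (2 * d) := Real.sin_le hy0.le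
    have hs0 : 0 ≤ Real.sin (Real.pi / (2 * d)) :=
      Real.sin_nonneg_of_nonneg_of_le_pi hy0.le (by linarith [Real.pi_gt_three])
    have hmono := frac_mono hs1 (by linarith)
    have hpos : 0 ≤ (1 + Real.sin (Real.pi / (2 * d))) / (1 - Real.sin (Real.pi / (2 * d))) :=
      div_nonneg (by linarith) (by linarith)
    refine (pow_le_pow_left₀ hpos hmono d).trans ?_
    rcases Nat.lt_or_ge d 5 with h5 | h5
    · have : d = 4 := by omega
      subst this
      have e : Real.pi / (2 * ((4 : ℕ) : ℝ)) ≤ 0.3927 := hy1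
      have hp2 : 0 ≤ (1 + Real.pi / (2 * ((4 : ℕ) : ℝ))) / (1 - Real.pi / (2 * ((4 : ℕ) : ℝ))) :=
        div_nonneg (by positivity) (by linarith)
      have := frac_mono e (by norm_num)
      refine (pow_le_pow_left₀ hp2 this 4).trans ?_
      norm_num
    · exact r_bound_five h5

variable {ι : Type*} [Fintype ι] [DecidableEq ι]

lemma odd_part_bound {f : (ι → ℤˣ) → ℝ} (hf : Bo f) {d : ℕ} (hd : DegLE f d) {t : ℝ}
    (ht0 : 0 ≤ t) (ht1 : t < 1) :
    (Et t f - Et (-t) f) / 2 ≤ (((1 + t) / (1 - t)) ^ d - 1) / (((1 + t) / (1 - t)) ^ d + 1) :=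
  tanh_bound (h := fun s => Et s f) (h' := fun s => ∑ i, cf s f {i})
    (fun s _ => hasDerivAt_Et f s)
    (fun s hs => abs_Et_le hf hs.1.le hs.2.le)
    (fun s hs => influence_ineq hf hd hs.1.le hs.2.le) ht0 ht1

theorem lin_le_of_three {f : (ι → ℤˣ) → ℝ} (hf : Bo f) {d : ℕ} (h3 : 3 ≤ d) (hd : DegLE f d) :
    lin f ≤ 17 / 18 * d := by
  have hd0 : 0 < d := by omega
  have hdR : (3 : ℝ) ≤ d := by exact_mod_cast h3
  set p : ℝ → ℝ := fun s => (Et s f - Et (-s) f) / 2 with hp
  set s : ℕ → ℝ := fun k => Real.sin (th d k) with hs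
  have hsb : ∀ k, -1 ≤ s k ∧ s k ≤ 1 := fun k => ⟨Real.neg_one_le_sin _, Real.sin_le_one _⟩
  have hpb : ∀ k, |p (s k)| ≤ 1 := by
    intro k
    have h1 := abs_Et_le hf (hsb k).1 (hsb k).2
    have h2 := abs_Et_le hf (t := -s k) (by linarith [(hsb k).2]) (by linarith [(hsb k).1])
    rw [abs_le] at h1 h2 ⊢
    constructor <;> simp only [hp] <;> linarith
  have h1 : lin f = ∑ k ∈ range (2 * d), ((-1 : ℝ) ^ k * lam d k) * Et (s k) f := riesz_poly hd0 hd
  have h2 : lin f = ∑ k ∈ range (2 * d), (-((-1 : ℝ) ^ k * lam d k)) * Et (-(s k)) f := by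
    rw [h1, ← Finset.sum_range_reflect]
    refine Finset.sum_congr rfl fun k hk => ?_
    have hk' := Finset.mem_range.mp hk
    rw [lam_reflect hk']
    simp only [hs]
    rw [sin_th_reflect hk']
    have e : (-1 : ℝ) ^ (2 * d - 1 - k) = -(-1) ^ k := by
      have h4 : (2 * d - 1 - k) + (k + 1) = 2 * d := by omega
      have h5 : (-1 : ℝ) ^ (2 * d - 1 - k) * (-1) ^ (k + 1) = 1 := by
        rw [← pow_add, h4, pow_mul]; simp
      have h6 : (-1 : ℝ) ^ k * (-1) ^ k = 1 := by rw [← mul_pow]; simp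
      rw [pow_succ] at h5
      have h7 : (-1 : ℝ) ^ (2 * d - 1 - k) * ((-1) ^ k * (-1) ^ k) = -(-1) ^ k := by
        linear_combination (-(-1 : ℝ) ^ k) * h5
      rw [h6, mul_one] at h7
      exact h7
    rw [e]; ring
  have h3' : lin f = ∑ k ∈ range (2 * d), ((-1 : ℝ) ^ k * lam d k) * p (s k) := by
    have : lin f = (lin f + lin f) / 2 := by ring
    rw [this]
    nth_rewrite 1 [h1]
    rw [h2, ← Finset.sum_add_distrib, Finset.sum_div]
    refine Finset.sum_congr rfl fun k _ => ?_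
    simp only [hp]; ring
  obtain ⟨m, hm⟩ : ∃ m, 2 * d = m + 2 := ⟨2 * d - 2, by omega⟩
  have hsplit : ∀ F : ℕ → ℝ, ∑ k ∈ range (2 * d), F k =
      F 0 + F (2 * d - 1) + ∑ k ∈ range m, F (k + 1) := by
    intro F
    rw [hm, Finset.sum_range_succ, Finset.sum_range_succ']
    simp
    ring
  have hterm : ∀ k, k < 2 * d → ((-1 : ℝ) ^ k * lam d k) * p (s k) ≤ lam d k := by
    intro k hk
    have hl := lam_pos hk
    have habs : |((-1 : ℝ) ^ k * lam d k) * p (s k)| ≤ lam d k := by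
      rw [abs_mul, abs_mul, abs_pow, abs_neg, abs_one, one_pow, one_mul, abs_of_pos hl]
      nlinarith [hpb k]
    exact (le_abs_self _).trans habs
  have hs0 : s 0 = Real.sin (Real.pi / (2 * d)) := by
    simp only [hs, th]; simp
  have hlast : ((-1 : ℝ) ^ (2 * d - 1) * lam d (2 * d - 1)) * p (s (2 * d - 1)) = lam d 0 * p (s 0) := by
    have e1 : lam d (2 * d - 1) = lam d 0 := by
      have := lam_reflect (d := d) (k := 0) (by omega)
      simpa using this
    have e2 : s (2 * d - 1) = - s 0 := by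
      have := sin_th_reflect (d := d) (k := 0) (by omega)
      simpa [hs] using this
    have e3 : (-1 : ℝ) ^ (2 * d - 1) = -1 := by
      apply Odd.neg_one_pow
      exact ⟨d - 1, by omega⟩
    rw [e1, e2, e3]
    simp only [hp, neg_neg]
    ring
  have hmain : lin f ≤ 2 * lam d 0 * p (s 0) + (d - 2 * lam d 0) := by
    have hsum := sum_lam hd0
    rw [hsplit] at hsum
    have e1 : lam d (2 * d - 1) = lam d 0 := by
      have := lam_reflect (d := d) (k := 0) (by omega)
      simpa using this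
    rw [h3', hsplit, hlast]
    have hrest : ∑ k ∈ range m, ((-1 : ℝ) ^ (k + 1) * lam d (k + 1)) * p (s (k + 1)) ≤
        ∑ k ∈ range m, lam d (k + 1) := by
      refine Finset.sum_le_sum fun k hk => hterm (k + 1) ?_
      have := Finset.mem_range.mp hk; omega
    rw [e1] at hsum
    simp only [pow_zero, one_mul]
    linarith
  have hpi0 := Real.pi_pos
  have hpi := Real.pi_lt_d4
  have hx0 : 0 < Real.pi / (2 * d) := by positivity
  have hx1 : Real.pi / (2 * d) < 1 := by
    rw [div_lt_one (by positivity)]; nlinarith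
  have hs0nn : 0 ≤ s 0 := by
    rw [hs0]; exact Real.sin_nonneg_of_nonneg_of_le_pi hx0.le (by linarith [Real.pi_gt_three])
  have hs0lt : s 0 < 1 := by
    rw [hs0]; exact (Real.sin_le hx0.le).trans_lt hx1
  have hodd := odd_part_bound hf hd hs0nn hs0lt
  set r := ((1 + s 0) / (1 - s 0)) ^ d with hr
  have hr28 : r ≤ 28 := by rw [hr, hs0]; exact r_bound h3
  have hr1 : 1 ≤ r := by
    apply one_le_pow₀
    rw [le_div_iff₀ (by linarith)]; linarith
  have hτ : p (s 0) ≤ 27 / 29 := by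
    refine hodd.trans ?_
    rw [div_le_div_iff₀ (by linarith) (by norm_num)]
    linarith
  have hlam0 : 4 * (d : ℝ) / Real.pi ^ 2 ≤ lam d 0 := by
    have hsin := sin_ne_zero (d := d) (k := 0) (by omega)
    have hth : th d 0 / 2 = Real.pi / (4 * d) := by
      rw [th]; push_cast; field_simp; ring
    have hle : Real.sin (th d 0 / 2) ≤ Real.pi / (4 * d) := by
      rw [hth]; exact Real.sin_le (by positivity)
    rw [lam]
    have h5 : 4 * (d : ℝ) * Real.sin (th d 0 / 2) ^ 2 ≤ Real.pi ^ 2 / (4 * d) := by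
      have h6 : Real.sin (th d 0 / 2) ^ 2 ≤ (Real.pi / (4 * d)) ^ 2 :=
        pow_le_pow_left₀ hsin.le hle 2
      calc 4 * (d : ℝ) * Real.sin (th d 0 / 2) ^ 2 ≤ 4 * d * (Real.pi / (4 * d)) ^ 2 :=
            mul_le_mul_of_nonneg_left h6 (by positivity)
        _ = Real.pi ^ 2 / (4 * d) := by field_simp
    calc 4 * (d : ℝ) / Real.pi ^ 2 = 1 / (Real.pi ^ 2 / (4 * d)) := by field_simp
      _ ≤ 1 / (4 * d * Real.sin (th d 0 / 2) ^ 2) :=
          one_div_le_one_div_of_le (by positivity) h5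
  have hl0 := lam_pos (d := d) (k := 0) (by omega)
  have h7 : lin f ≤ d - 2 * lam d 0 * (2 / 29) := by
    have h8 : 2 * lam d 0 * p (s 0) ≤ 2 * lam d 0 * (27 / 29) :=
      mul_le_mul_of_nonneg_left hτ (by linarith)
    linarith
  have h9 : (d : ℝ) / 18 ≤ 2 * lam d 0 * (2 / 29) := by
    have h10 : (d : ℝ) / 18 ≤ 2 * (4 * (d : ℝ) / Real.pi ^ 2) * (2 / 29) := by
      have h11 : Real.pi ^ 2 ≤ 9.87 := by nlinarith
      have h12 : 2 * (4 * (d : ℝ) / Real.pi ^ 2) * (2 / 29) = (16 / 29) * d / Real.pi ^ 2 := by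
        field_simp; ring
      rw [h12, le_div_iff₀ (by positivity)]
      nlinarith
    linarith
  linarith

lemma DegLE.mono {f : (ι → ℤˣ) → ℝ} {d e : ℕ} (h : DegLE f d) (hde : d ≤ e) : DegLE f e :=
  fun T hT => h T (lt_of_le_of_lt hde hT)

lemma lin_eq_of_le_two {f : (ι → ℤˣ) → ℝ} (hd : DegLE f 2) :
    lin f = (Et 1 f - Et (-1) f) / 2 := by
  rw [Et_eq, Et_eq, ← Finset.sum_sub_distrib, Finset.sum_div]
  have h : ∀ T : Finset ι, (fh f T * 1 ^ T.card - fh f T * (-1) ^ T.card) / 2 =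
      if T.card = 1 then fh f T else 0 := by
    intro T
    rcases Nat.lt_or_ge 2 T.card with h | h
    · rw [hd T h]; simp
    · interval_cases hc : T.card
      · simp
      · simp
      · simp
  simp_rw [h]
  rw [lin, ← Finset.sum_filter]
  refine Finset.sum_nbij (fun i => {i}) ?_ ?_ ?_ ?_
  · intro i _; simp
  · intro i _ j _ h
    simpa using h
  · intro T hT
    obtain ⟨a, rfl⟩ := Finset.card_eq_one.mp (by simpa using hT)
    simp
  · intro i _; rfl

lemma lin_le_one {f : (ι → ℤˣ) → ℝ} (hf : Bo f) (hd : DegLE f 2) : lin f ≤ 1 := by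
  rw [lin_eq_of_le_two hd]
  have h1 := abs_le.mp (abs_Et_le hf (t := 1) (by norm_num) le_rfl)
  have h2 := abs_le.mp (abs_Et_le hf (t := -1) le_rfl (by norm_num))
  linarith

theorem lin_le_deg {f : (ι → ℤˣ) → ℝ} (hf : Bo f) {d : ℕ} (h1 : 1 ≤ d) (hd : DegLE f d) :
    lin f ≤ d := by
  have hdR : (1 : ℝ) ≤ d := by exact_mod_cast h1
  rcases Nat.lt_or_ge d 3 with h | h
  · have := lin_le_one hf (hd.mono (by omega))
    linarith
  · have := lin_le_of_three hf h hd
    linarith

theorem lin_le_main {f : (ι → ℤˣ) → ℝ} (hf : Bo f) {d : ℕ} (h2 : 2 ≤ d) (hd : DegLE f d) :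
    lin f ≤ 17 / 18 * d := by
  rcases Nat.lt_or_ge d 3 with h | h
  · have h3 : d = 2 := by omega
    subst h3
    have := lin_le_one hf hd
    push_cast
    linarith
  · exact lin_le_of_three hf h hd

end

end Vale.Agent.P047
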