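import Mathlib
import Vale.Agent.P047.Defs
import Vale.Agent.P047.UpperMain
import Vale.Agent.P047.Compose

namespace Vale.Agent.P047

open Finset

noncomputable section

lemma fourier_eq {n : ℕ} (f : (Fin n → ℤˣ) → ℝ) (S : Finset (Fin n)) : fourier f S = fh f S := by
  rw [fourier, fh, Et, Finset.sum_div]
  refine Finset.sum_congr rfl fun x _ => ?_
  have : wt 0 x = 1 / 2 ^ n := by
    rw [wt]
    simp
  rw [this, chi]
  simp only [val]
  ring

lemma linearSum_eq {n : ℕ} (f : (Fin n → ℤˣ) → ℝ) : linearSum f = lin f := by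
  rw [linearSum, lin]
  exact Finset.sum_congr rfl fun i _ => fourier_eq f {i}

lemma degree_le_iff {n : ℕ} (f : (Fin n → ℤˣ) → ℝ) (d : ℕ) : degree f ≤ d ↔ DegLE f d := by
  rw [degree, Finset.sup_le_iff]
  constructor
  · intro h T hT
    by_contra hcon
    have := h T (by simp [fourier_eq, hcon])
    omega
  · intro h T hT
    simp only [Finset.mem_filter, Finset.mem_univ, true_and, fourier_eq] at hT
    by_contra hcon
    exact hT (h T (by omega))

lemma bddAbove_M (d : ℕ) : BddAbove {a : ℝ | ∃ (n : ℕ) (f : (Fin n → ℤˣ) → ℝ),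
    1 ≤ n ∧ IsBoolean f ∧ degree f ≤ d ∧ linearSum f = a} := by
  refine ⟨(d + 1 : ℕ), ?_⟩
  rintro a ⟨n, f, _, hf, hd, rfl⟩
  rw [linearSum_eq]
  rw [degree_le_iff] at hd
  exact lin_le_deg hf (by omega) (hd.mono (by omega))

lemma le_M {n : ℕ} {f : (Fin n → ℤˣ) → ℝ} {d : ℕ} (hn : 1 ≤ n) (hf : Bo f) (hd : DegLE f d) :
    lin f ≤ M d :=
  le_csSup (bddAbove_M d) ⟨n, f, hn, hf, (degree_le_iff f d).mpr hd, linearSum_eq f⟩

lemma M_nonempty (d : ℕ) : {a : ℝ | ∃ (n : ℕ) (f : (Fin n → ℤˣ) → ℝ),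
    1 ≤ n ∧ IsBoolean f ∧ degree f ≤ d ∧ linearSum f = a}.Nonempty := by
  refine ⟨_, 1, fun _ => 1, le_rfl, fun _ => Or.inl rfl, ?_, rfl⟩
  rw [degree_le_iff]
  intro T hT
  have : (fun _ : Fin 1 → ℤˣ => (1 : ℝ)) = fun x => ∑ j ∈ ({0} : Finset ℕ), (1 : ℝ) * chi (∅ : Finset (Fin 1)) x := by
    funext x; simp [chi]
  rw [this, fh_sum_chi]
  have h : T ≠ ∅ := by rintro rfl; simp at hT
  simp [h.symm]

lemma M_le {d : ℕ} {c : ℝ} (h : ∀ (n : ℕ) (f : (Fin n → ℤˣ) → ℝ), Bo f → DegLE f d → lin f ≤ c) :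
    M d ≤ c := by
  apply csSup_le (M_nonempty d)
  rintro a ⟨n, f, _, hf, hd, rfl⟩
  rw [linearSum_eq]
  exact h n f hf ((degree_le_iff f d).mp hd)

lemma M_mono {d e : ℕ} (h : d ≤ e) : M d ≤ M e := by
  apply csSup_le (M_nonempty d)
  rintro a ⟨n, f, hn, hf, hd, rfl⟩
  rw [linearSum_eq]
  exact le_M hn hf (((degree_le_iff f d).mp hd).mono h)

lemma Bal_le_M {a : ℝ} {w : ℕ} (h : Bal a w) : a ≤ M w := by
  obtain ⟨n, f, hn, hf, hd, _, hl⟩ := h
  exact hl.trans (le_M hn hf hd)

theorem upper_bound {d : ℕ} (hd : 2 ≤ d) : M d ≤ 17 / 18 * d :=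
  M_le fun _ _ hf hdeg => lin_le_main hf hd hdeg

lemma wseq_le {d : ℕ} (hd : 2 ≤ d) (k : ℕ) : wseq d k + 1 ≤ 2 * d ^ k := by
  induction k with
  | zero => simp [wseq]
  | succ k ih =>
    rw [wseq, pow_succ]
    nlinarith [Nat.one_le_pow k d (by omega)]

theorem dichotomy : (∀ d : ℕ, 1 ≤ d → M d ≤ Real.sqrt d) ∨
    ∃ ε : ℝ, 0 < ε ∧ ∀ᶠ d : ℕ in Filter.atTop, (d : ℝ) ^ (1 / 2 + ε) ≤ M d := by
  by_cases hall : ∀ d : ℕ, 1 ≤ d → M d ≤ Real.sqrt d
  · exact Or.inl hall
  right
  push Not at hall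
  obtain ⟨d, hd1, hdM⟩ := hall
  obtain ⟨a, ⟨n, f, _, hf, hdeg, hfa⟩, hA⟩ := exists_lt_of_lt_csSup (M_nonempty d) hdM
  rw [degree_le_iff] at hdeg
  rw [← hfa, linearSum_eq] at hA
  have hd2 : 2 ≤ d := by
    by_contra hcon
    have : d = 1 := by omega
    subst this
    have := lin_le_deg hf le_rfl hdeg
    simp at hA this
    linarith
  set A := lin f with hAdef
  have hdR : (2 : ℝ) ≤ d := by exact_mod_cast hd2
  have hsq : 1 ≤ Real.sqrt d := by
    rw [Real.one_le_sqrt]; linarith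
  have hA1 : 1 < A := by linarith
  have hA0 : 0 < A := by linarith
  have hlogd : 0 < Real.log d := Real.log_pos (by linarith)
  set β := Real.log A / Real.log d with hβ
  have hβ2 : 1 / 2 < β := by
    rw [hβ, lt_div_iff₀ hlogd]
    have h1 : Real.log (Real.sqrt d) < Real.log A := Real.log_lt_log (by linarith) hA
    rw [Real.log_sqrt (by linarith)] at h1
    linarith
  set ε := (β - 1 / 2) / 2 with hε
  have hε0 : 0 < ε := by rw [hε]; linarith
  refine ⟨ε, hε0, ?_⟩
  set γ := 1 / 2 + ε with hγ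
  have hγβ : γ < β := by rw [hγ, hε]; linarith
  have hγ0 : 0 < γ := by rw [hγ]; linarith
  obtain ⟨K0, hK0⟩ := exists_nat_ge (γ * (Real.log 2 + Real.log d) / ((β - γ) * Real.log d))
  rw [Filter.eventually_atTop]
  refine ⟨2 * d ^ K0, fun D hD => ?_⟩
  have hdpos : 0 < d := by omega
  have hD2 : 2 ≤ D := by
    have := Nat.one_le_pow K0 d hdpos
    omega
  set k := Nat.log d (D / 2) with hk
  have hD2ne : D / 2 ≠ 0 := by omega
  have hk1 : d ^ k ≤ D / 2 := Nat.pow_log_le_self d hD2ne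
  have hk2 : D / 2 < d ^ (k + 1) := Nat.lt_pow_succ_log_self (by omega) _
  have hkK : K0 ≤ k := by
    rw [hk]
    apply Nat.le_log_of_pow_le (by omega)
    omega
  have hw : wseq d k ≤ D := by
    have := wseq_le hd2 k
    omega
  have hM1 : A ^ k ≤ M D := (Bal_le_M (Bal_pow hf hdeg hA0.le k)).trans (M_mono hw)
  refine le_trans ?_ hM1
  have hDlt : (D : ℝ) ≤ 2 * (d : ℝ) ^ (k + 1) := by
    have : D ≤ 2 * d ^ (k + 1) := by omega
    exact_mod_cast this
  have hDpos : (0 : ℝ) < D := by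
    have : 0 < D := by omega
    exact_mod_cast this
  have hlogD : Real.log D ≤ Real.log 2 + (k + 1) * Real.log d := by
    calc Real.log D ≤ Real.log (2 * (d : ℝ) ^ (k + 1)) := Real.log_le_log hDpos hDlt
      _ = Real.log 2 + (k + 1) * Real.log d := by
        rw [Real.log_mul (by norm_num) (by positivity), Real.log_pow]
        push_cast; ring
  have hkR : (K0 : ℝ) ≤ k := by exact_mod_cast hkK
  have hkey : γ * (Real.log 2 + Real.log d) ≤ (β - γ) * Real.log d * k := by
    have hpos : 0 < (β - γ) * Real.log d := mul_pos (by linarith) hlogd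
    have := (div_le_iff₀ hpos).mp (hK0.trans hkR)
    linarith
  have hβA : Real.log A = β * Real.log d := by
    rw [hβ]; field_simp
  have h5 : γ * Real.log D ≤ k * Real.log A := by
    calc γ * Real.log D ≤ γ * (Real.log 2 + (k + 1) * Real.log d) :=
          mul_le_mul_of_nonneg_left hlogD hγ0.le
      _ ≤ k * Real.log A := by rw [hβA]; nlinarith
  rw [Real.rpow_def_of_pos hDpos]
  calc Real.exp (Real.log D * γ) ≤ Real.exp (k * Real.log A) :=
        Real.exp_le_exp.mpr (by linarith)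
    _ = A ^ k := by rw [Real.exp_nat_mul, Real.exp_log hA0]

theorem weak_iff_strong :
    (∃ C : ℝ, ∀ (n : ℕ) (f : (Fin n → ℤˣ) → ℝ), IsBoolean f →
      linearSum f ≤ C * Real.sqrt (degree f)) ↔
    (∀ (n : ℕ) (f : (Fin n → ℤˣ) → ℝ), IsBoolean f → linearSum f ≤ Real.sqrt (degree f)) := by
  constructor
  · rintro ⟨C, hC⟩ n f hf
    rcases Nat.eq_zero_or_pos (degree f) with h0 | h0
    · have h1 : DegLE f 0 := (degree_le_iff f 0).mp (by omega)
      have h2 : lin f = 0 := by
        rw [lin]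
        exact Finset.sum_eq_zero fun i _ => h1 {i} (by simp)
      rw [linearSum_eq, h2]
      positivity
    · set d := degree f with hd
      have hdeg : DegLE f d := (degree_le_iff f d).mp le_rfl
      rw [linearSum_eq]
      by_contra hcon
      push Not at hcon
      rcases dichotomy with h | ⟨ε, hε, h⟩
      · have hn : 1 ≤ n := by
          rcases Nat.eq_zero_or_pos n with hn | hn
          · subst hn
            have h3 : lin f = 0 := by rw [lin]; simp
            rw [h3] at hcon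
            exact absurd hcon (not_lt.mpr (Real.sqrt_nonneg _))
          · exact hn
        exact absurd (le_M hn hf hdeg) (not_le.mpr (lt_of_le_of_lt (h d h0) hcon))
      · have hMC : ∀ D : ℕ, 1 ≤ D → M D ≤ |C| * Real.sqrt D := by
          intro D hD
          apply M_le
          intro m g hg hgd
          have h4 := hC m g hg
          rw [linearSum_eq] at h4
          have h5 : degree g ≤ D := (degree_le_iff g D).mpr hgd
          have h6 : Real.sqrt (degree g) ≤ Real.sqrt D := Real.sqrt_le_sqrt (by exact_mod_cast h5)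
          calc lin g ≤ C * Real.sqrt (degree g) := h4
            _ ≤ |C| * Real.sqrt (degree g) :=
              mul_le_mul_of_nonneg_right (le_abs_self C) (Real.sqrt_nonneg _)
            _ ≤ |C| * Real.sqrt D := mul_le_mul_of_nonneg_left h6 (abs_nonneg C)
        have htend : Filter.Tendsto (fun D : ℕ => (D : ℝ) ^ ε) Filter.atTop Filter.atTop :=
          (tendsto_rpow_atTop hε).comp tendsto_natCast_atTop_atTop
        have hev := htend.eventually (Filter.eventually_gt_atTop |C|)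
        obtain ⟨D, hD1, hD2, hD3⟩ := (h.and (hev.and (Filter.eventually_ge_atTop 1))).exists
        have hDpos : (0 : ℝ) < D := by exact_mod_cast hD3
        have h7 := hMC D hD3
        rw [Real.rpow_add hDpos, ← Real.sqrt_eq_rpow] at hD1
        have h8 : 0 < Real.sqrt D := Real.sqrt_pos.mpr hDpos
        nlinarith
  · intro h
    exact ⟨1, fun n f hf => by simpa using h n f hf⟩

end

end Vale.Agent.P047
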