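import Mathlib
import Vale.Agent.P047.Dichotomy

namespace Vale.Agent.P047

open Finset

noncomputable section

lemma pow_lower {n d : ℕ} {f : (Fin n → ℤˣ) → ℝ} (hf : Bo f) (hdeg : DegLE f d) (hd2 : 2 ≤ d)
    (hA1 : 1 < lin f) {γ : ℝ} (hγ0 : 0 < γ) (hγβ : γ < Real.log (lin f) / Real.log d) :
    ∀ᶠ D : ℕ in Filter.atTop, (D : ℝ) ^ γ ≤ M D := by
  set A := lin f with hAdef
  have hdR : (2 : ℝ) ≤ d := by exact_mod_cast hd2
  have hA0 : 0 < A := by linarith
  have hlogd : 0 < Real.log d := Real.log_pos (by linarith)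
  set β := Real.log A / Real.log d with hβ
  obtain ⟨K0, hK0⟩ := exists_nat_ge (γ * (Real.log 2 + Real.log d) / ((β - γ) * Real.log d))
  rw [Filter.eventually_atTop]
  refine ⟨2 * d ^ K0, fun D hD => ?_⟩
  have hdpos : 0 < d := by omega
  have hD2 : 2 ≤ D := by
    have := Nat.one_le_pow K0 d hdpos
    omega
  set k := Nat.log d (D / 2) with hk
  have hD2ne : D / 2 ≠ 0 := by omega
  have hk1 : d ^ k ≤ D / 2 := Nat.pow_log_le_self d hD2ne
  have hk2 : D / 2 < d ^ (k + 1) := Nat.lt_pow_succ_log_self (by omega) _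
  have hkK : K0 ≤ k := by
    rw [hk]
    apply Nat.le_log_of_pow_le (by omega)
    omega
  have hw : wseq d k ≤ D := by
    have := wseq_le hd2 k
    omega
  have hM1 : A ^ k ≤ M D := (Bal_le_M (Bal_pow hf hdeg hA0.le k)).trans (M_mono hw)
  refine le_trans ?_ hM1
  have hDlt : (D : ℝ) ≤ 2 * (d : ℝ) ^ (k + 1) := by
    have : D ≤ 2 * d ^ (k + 1) := by omega
    exact_mod_cast this
  have hDpos : (0 : ℝ) < D := by
    have : 0 < D := by omega
    exact_mod_cast this
  have hlogD : Real.log D ≤ Real.log 2 + (k + 1) * Real.log d := by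
    calc Real.log D ≤ Real.log (2 * (d : ℝ) ^ (k + 1)) := Real.log_le_log hDpos hDlt
      _ = Real.log 2 + (k + 1) * Real.log d := by
        rw [Real.log_mul (by norm_num) (by positivity), Real.log_pow]
        push_cast; ring
  have hkR : (K0 : ℝ) ≤ k := by exact_mod_cast hkK
  have hkey : γ * (Real.log 2 + Real.log d) ≤ (β - γ) * Real.log d * k := by
    have hpos : 0 < (β - γ) * Real.log d := mul_pos (by linarith) hlogd
    have := (div_le_iff₀ hpos).mp (hK0.trans hkR)
    linarith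
  have hβA : Real.log A = β * Real.log d := by
    rw [hβ]; field_simp
  have h5 : γ * Real.log D ≤ k * Real.log A := by
    calc γ * Real.log D ≤ γ * (Real.log 2 + (k + 1) * Real.log d) :=
          mul_le_mul_of_nonneg_left hlogD hγ0.le
      _ ≤ k * Real.log A := by rw [hβA]; nlinarith
  rw [Real.rpow_def_of_pos hDpos]
  calc Real.exp (Real.log D * γ) ≤ Real.exp (k * Real.log A) :=
        Real.exp_le_exp.mpr (by linarith)
    _ = A ^ k := by rw [Real.exp_nat_mul, Real.exp_log hA0]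

lemma pow_lower' {d : ℕ} (hd2 : 2 ≤ d) {γ : ℝ} (hγ0 : 0 < γ) (hγ : (d : ℝ) ^ γ < M d) :
    ∀ᶠ D : ℕ in Filter.atTop, (D : ℝ) ^ γ ≤ M D := by
  obtain ⟨a, ⟨n, f, _, hf, hdeg, hfa⟩, hA⟩ := exists_lt_of_lt_csSup (M_nonempty d) hγ
  rw [degree_le_iff] at hdeg
  rw [← hfa, linearSum_eq] at hA
  have hdR : (1 : ℝ) < d := by
    have : 1 < d := by omega
    exact_mod_cast this
  have h1 : 1 < (d : ℝ) ^ γ := Real.one_lt_rpow hdR hγ0
  refine pow_lower hf hdeg hd2 (h1.trans hA) hγ0 ?_
  rw [lt_div_iff₀ (Real.log_pos hdR), ← Real.log_rpow (by linarith)]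
  exact Real.log_lt_log (by linarith) hA

/-- if the weak form fails then `M d = d ^ (α + o(1))` for some `1/2 < α ≤ 1`, with `M d ≤ d ^ α` for all `d ≥ 1` -/
theorem growth (h : ¬ ∃ C : ℝ, ∀ (n : ℕ) (f : (Fin n → ℤˣ) → ℝ), IsBoolean f →
      linearSum f ≤ C * Real.sqrt (degree f)) :
    ∃ α : ℝ, 1 / 2 < α ∧ α ≤ 1 ∧ (∀ d : ℕ, 1 ≤ d → M d ≤ (d : ℝ) ^ α) ∧
      Filter.Tendsto (fun d : ℕ => Real.log (M d) / Real.log d) Filter.atTop (nhds α) := by
  have h0 : ∃ ε : ℝ, 0 < ε ∧ ∀ᶠ d : ℕ in Filter.atTop, (d : ℝ) ^ (1 / 2 + ε) ≤ M d := by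
    rcases dichotomy with h1 | h1
    · exfalso
      apply h
      refine ⟨1, fun n f hf => ?_⟩
      rw [one_mul, linearSum_eq]
      have hdeg : DegLE f (degree f) := (degree_le_iff f _).mp le_rfl
      rcases Nat.eq_zero_or_pos (degree f) with h0 | h0
      · have h1 : DegLE f 0 := (degree_le_iff f 0).mp (by omega)
        have h2 : lin f = 0 := by
          rw [lin]
          exact Finset.sum_eq_zero fun i _ => h1 {i} (by simp)
        rw [h2]
        positivity
      · rcases Nat.eq_zero_or_pos n with hn | hn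
        · subst hn
          have h3 : lin f = 0 := by rw [lin]; simp
          rw [h3]
          exact Real.sqrt_nonneg _
        · exact (le_M hn hf hdeg).trans (h1 _ h0)
    · exact h1
  obtain ⟨ε, hε, hev⟩ := h0
  have hM1 : M 1 ≤ 1 := M_le fun n f hf hd => by
    have := lin_le_deg hf le_rfl hd
    simpa using this
  have hM2 : ∀ d : ℕ, 2 ≤ d → M d ≤ d := fun d hd => by
    refine (upper_bound hd).trans ?_
    have : (0 : ℝ) ≤ d := Nat.cast_nonneg d
    linarith
  set T : Set ℝ := {y : ℝ | ∃ d : ℕ, 2 ≤ d ∧ 0 < M d ∧ y = Real.log (M d) / Real.log d} with hT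
  have hTb : ∀ y ∈ T, y ≤ 1 := by
    rintro y ⟨d, hd, hMd, rfl⟩
    have hdR : (1 : ℝ) < d := by
      have : 1 < d := by omega
      exact_mod_cast this
    rw [div_le_one (Real.log_pos hdR)]
    exact Real.log_le_log hMd (hM2 d hd)
  obtain ⟨D0, hD0, hD02⟩ := (hev.and (Filter.eventually_ge_atTop 2)).exists
  have hD0R : (1 : ℝ) < D0 := by
    have : 1 < D0 := by omega
    exact_mod_cast this
  have hMD0 : 0 < M D0 := lt_of_lt_of_le (Real.rpow_pos_of_pos (by linarith) _) hD0
  have hmem : Real.log (M D0) / Real.log D0 ∈ T := ⟨D0, hD02, hMD0, rfl⟩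
  have hTbdd : BddAbove T := ⟨1, hTb⟩
  set α := sSup T with hα
  have hα1 : α ≤ 1 := csSup_le ⟨_, hmem⟩ hTb
  have hα2 : 1 / 2 + ε ≤ α := by
    refine le_trans ?_ (le_csSup hTbdd hmem)
    rw [le_div_iff₀ (Real.log_pos hD0R), ← Real.log_rpow (by linarith)]
    exact Real.log_le_log (Real.rpow_pos_of_pos (by linarith) _) hD0
  have hup : ∀ d : ℕ, 1 ≤ d → M d ≤ (d : ℝ) ^ α := by
    intro d hd
    rcases Nat.lt_or_ge 1 d with hd2 | hd1
    · by_cases hM0 : 0 < M d
      · have hdR : (1 : ℝ) < d := by exact_mod_cast hd2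
        have h1 : Real.log (M d) / Real.log d ≤ α := le_csSup hTbdd ⟨d, hd2, hM0, rfl⟩
        rw [div_le_iff₀ (Real.log_pos hdR), ← Real.log_rpow (by linarith)] at h1
        exact (Real.log_le_log_iff hM0 (Real.rpow_pos_of_pos (by linarith) _)).mp h1
      · exact (not_lt.mp hM0).trans (Real.rpow_nonneg (Nat.cast_nonneg d) _)
    · have : d = 1 := by omega
      subst this
      simpa using hM1
  refine ⟨α, by linarith, hα1, hup, ?_⟩
  rw [tendsto_order]
  constructor
  · intro a ha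
    set γ := max ((a + α) / 2) (1 / 2) with hγ
    have hγα : γ < α := by
      rw [hγ, max_lt_iff]
      constructor <;> linarith
    have haγ : a < γ := lt_of_lt_of_le (by linarith) (le_max_left _ _)
    have hγ0 : 0 < γ := lt_of_lt_of_le (by norm_num) (le_max_right _ _)
    obtain ⟨y, ⟨d, hd, hMd, rfl⟩, hy⟩ := exists_lt_of_lt_csSup ⟨_, hmem⟩ hγα
    have hdR : (1 : ℝ) < d := by
      have : 1 < d := by omega
      exact_mod_cast this
    rw [lt_div_iff₀ (Real.log_pos hdR), ← Real.log_rpow (by linarith)] at hy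
    have hy' := (Real.log_lt_log_iff (Real.rpow_pos_of_pos (by linarith) _) hMd).mp hy
    filter_upwards [pow_lower' hd hγ0 hy', Filter.eventually_ge_atTop 2] with D hD hD2
    have hDR : (1 : ℝ) < D := by
      have : 1 < D := by omega
      exact_mod_cast this
    refine lt_of_lt_of_le haγ ?_
    rw [le_div_iff₀ (Real.log_pos hDR), ← Real.log_rpow (by linarith)]
    exact Real.log_le_log (Real.rpow_pos_of_pos (by linarith) _) hD
  · intro a ha
    filter_upwards [hev, Filter.eventually_ge_atTop 2] with D hD hD2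
    have hDR : (1 : ℝ) < D := by
      have : 1 < D := by omega
      exact_mod_cast this
    have hMD : 0 < M D := lt_of_lt_of_le (Real.rpow_pos_of_pos (by linarith) _) hD
    exact lt_of_le_of_lt (le_csSup hTbdd ⟨D, hD2, hMD, rfl⟩) ha

end

end Vale.Agent.P047
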