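import Mathlib
import Vale.Agent.P047.Dichotomy

namespace Vale.Agent.P047

open Finset

noncomputable section

set_option linter.unusedSectionVars false

variable {ι : Type*} [Fintype ι] [DecidableEq ι]

def flp (U : Finset ι) (y : ι → ℤˣ) (i : ι) : ℤˣ := if i ∈ U then - y i else y i

lemma chi_flp (S U : Finset ι) (y : ι → ℤˣ) :
    chi S (flp U y) = chi S y * ∏ i ∈ U, (if i ∈ S then (-1 : ℝ) else 1) := by
  have h : ∏ i ∈ U, (if i ∈ S then (-1 : ℝ) else 1) = ∏ i ∈ S, (if i ∈ U then (-1 : ℝ) else 1) := by
    rw [Finset.prod_ite_mem, Finset.prod_ite_mem, Finset.inter_comm]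
  rw [h, chi, chi, ← Finset.prod_mul_distrib]
  refine Finset.prod_congr rfl fun i _ => ?_
  rw [flp]
  split_ifs
  · rw [val_neg]; ring
  · ring

lemma alt_sum_zero {f : (ι → ℤˣ) → ℝ} {d : ℕ} (hf : DegLE f d) {T : Finset ι} (hT : d < T.card)
    (y : ι → ℤˣ) : ∑ U ∈ T.powerset, (-1 : ℝ) ^ U.card * f (flp U y) = 0 := by
  have h1 : ∀ U : Finset ι, (-1 : ℝ) ^ U.card * f (flp U y) = ∑ S, fh f S * chi S y *
      ∏ i ∈ U, ((-1) * (if i ∈ S then (-1 : ℝ) else 1)) := by
    intro U
    rw [inversion f (flp U y), Finset.mul_sum]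
    refine Finset.sum_congr rfl fun S _ => ?_
    rw [chi_flp, Finset.prod_mul_distrib, Finset.prod_const]
    ring
  simp_rw [h1]
  rw [Finset.sum_comm]
  refine Finset.sum_eq_zero fun S _ => ?_
  rw [← Finset.mul_sum, ← Finset.prod_one_add]
  by_cases hS : T ⊆ S
  · rw [hf S (lt_of_lt_of_le hT (Finset.card_le_card hS))]; simp
  · obtain ⟨i, hi, hi2⟩ := Finset.not_subset.mp hS
    rw [Finset.prod_eq_zero hi, mul_zero]
    simp [hi2]

lemma card_le_of_and {f : (ι → ℤˣ) → ℝ} {d : ℕ} (hf : DegLE f d) {T : Finset ι} (y : ι → ℤˣ)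
    (hy : f y ≠ 0) (h : ∀ U, U ⊆ T → U ≠ ∅ → f (flp U y) = - f y) : T.card ≤ d := by
  by_contra hcon
  push Not at hcon
  have h1 := alt_sum_zero hf hcon y
  have hTne : T.Nonempty := by
    rw [← Finset.card_pos]; omega
  have h2 : ∑ U ∈ T.powerset, (-1 : ℝ) ^ U.card = 0 := by
    have := Finset.sum_powerset_neg_one_pow_card_of_nonempty hTne
    exact_mod_cast this
  have h3 : ∑ U ∈ T.powerset, (-1 : ℝ) ^ U.card * f (flp U y) =
      ∑ U ∈ T.powerset, ((-1 : ℝ) ^ U.card * (- f y) + if U = ∅ then 2 * f y else 0) := by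
    refine Finset.sum_congr rfl fun U hU => ?_
    by_cases hU0 : U = ∅
    · subst hU0
      have : flp ∅ y = y := by funext i; simp [flp]
      rw [this]; simp; ring
    · rw [h U (Finset.mem_powerset.mp hU) hU0, if_neg hU0, add_zero]
  rw [h3, Finset.sum_add_distrib, ← Finset.sum_mul, h2, Finset.sum_ite_eq'] at h1
  simp at h1
  exact hy h1

lemma bessel {f : (ι → ℤˣ) → ℝ} (hf : Bo f) : ∑ S, fh f S ^ 2 = 1 := by
  have h := Et_sq 0 f
  have h1 : (fun x => f x * f x) = fun _ : ι → ℤˣ => (1 : ℝ) := by
    funext x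
    rcases hf x with h | h <;> rw [h] <;> norm_num
  rw [h1, Et_one] at h
  rw [h]
  refine Finset.sum_congr rfl fun S _ => ?_
  have h2 : cf 0 f S = fh f S := by
    rw [cf, Finset.sum_eq_single S]
    · simp
    · intro T _ hT
      split_ifs with h3
      · have : 0 < T.card - S.card := by
          have := Finset.card_lt_card (lt_of_le_of_ne h3 (Ne.symm hT))
          omega
        rw [zero_pow this.ne', mul_zero]
      · rfl
    · simp
  rw [h2]; simp

theorem ltf_bound {f : (ι → ℤˣ) → ℝ} (hf : Bo f) (w : ι → ℝ) (θ : ℝ)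
    (h : ∀ x, f x = 1 ↔ θ ≤ ∑ i, w i * val (x i)) {d : ℕ} (hd : DegLE f d) :
    |lin f| ≤ Real.sqrt (2 * d) := by
  set R : Finset ι := Finset.univ.filter (fun i => fh f {i} ≠ 0) with hR
  have hneg : ∀ x, f x = -1 ↔ ∑ i, w i * val (x i) < θ := by
    intro x
    rw [← not_le, ← h x]
    rcases hf x with h1 | h1 <;> rw [h1] <;> norm_num
  have hupd : ∀ (x : ι → ℤˣ) (i : ι) (u : ℤˣ), ∑ j, w j * val (Function.update x i u j) =
      w i * val u + ∑ j ∈ Finset.univ.erase i, w j * val (x j) := by
    intro x i u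
    rw [← Finset.add_sum_erase _ _ (Finset.mem_univ i)]
    congr 1
    · simp
    · exact Finset.sum_congr rfl fun j hj => by rw [Function.update_of_ne (Finset.ne_of_mem_erase hj)]
  have hrel : ∀ i ∈ R, ∃ x, f (Function.update x i 1) ≠ f (Function.update x i (-1)) := by
    intro i hi
    rw [hR, Finset.mem_filter] at hi
    by_contra hcon
    push Not at hcon
    apply hi.2
    have h1 : cf 0 f {i} = Et 0 (K i f) := (Et_K 0 i f).symm
    have h2 : K i f = fun _ => (0 : ℝ) := by
      funext x
      rw [K, hcon x]; simp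
    have h3 : cf 0 f {i} = fh f {i} := by
      rw [cf, Finset.sum_eq_single {i}]
      · simp
      · intro T _ hT
        split_ifs with h3
        · have : 0 < T.card - ({i} : Finset ι).card := by
            have := Finset.card_lt_card (lt_of_le_of_ne h3 (Ne.symm hT))
            omega
          rw [zero_pow this.ne', mul_zero]
        · rfl
      · simp
    rw [← h3, h1, h2]
    simp [Et]
  have hwne : ∀ i ∈ R, w i ≠ 0 := by
    intro i hi h0
    obtain ⟨x, hx⟩ := hrel i hi
    apply hx
    have e : ∑ j, w j * val (Function.update x i 1 j) = ∑ j, w j * val (Function.update x i (-1) j) := by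
      rw [hupd, hupd, h0]; simp
    rcases hf (Function.update x i 1) with h1 | h1
    · rw [h1]
      have := (h _).mp h1
      rw [e] at this
      exact ((h _).mpr this).symm
    · rw [h1]
      have := (hneg _).mp h1
      rw [e] at this
      exact ((hneg _).mpr this).symm
  have hcard : R.card ≤ 2 * d := by
    rcases R.eq_empty_or_nonempty with h0 | h0
    · rw [h0]; simp
    obtain ⟨i, hiR, hmin⟩ := Finset.exists_min_image R (fun i => |w i|) h0
    obtain ⟨x, hx⟩ := hrel i hiR
    obtain ⟨u, hu⟩ : ∃ u : ℤˣ, w i * val u = |w i| := by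
      rcases le_or_gt 0 (w i) with h1 | h1
      · exact ⟨1, by simp [abs_of_nonneg h1]⟩
      · exact ⟨-1, by simp [abs_of_neg h1]⟩
    have hwpos : 0 < |w i| := abs_pos.mpr (hwne i hiR)
    set yt := Function.update x i u with hyt
    set yb := Function.update x i (-u) with hyb
    have hLt : ∑ j, w j * val (yt j) = |w i| + ∑ j ∈ Finset.univ.erase i, w j * val (x j) := by
      rw [hyt, hupd, hu]
    have hLb : ∑ j, w j * val (yb j) = -|w i| + ∑ j ∈ Finset.univ.erase i, w j * val (x j) := by
      rw [hyb, hupd, val_neg, ← hu]; ring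
    have hne : f yt ≠ f yb := by
      rw [hyt, hyb]
      rcases Int.units_eq_one_or u with h1 | h1 <;> rw [h1]
      · exact hx
      · simpa using hx.symm
    have hft : f yt = 1 := by
      rcases hf yt with h1 | h1
      · exact h1
      · exfalso
        have h2 := (hneg yt).mp h1
        have h3 : f yb = -1 := (hneg yb).mpr (by rw [hLb]; rw [hLt] at h2; linarith)
        exact hne (h1.trans h3.symm)
    have hfb : f yb = -1 := by
      rcases hf yb with h1 | h1
      · exact absurd (hft.trans h1.symm) hne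
      · exact h1
    have hflip : ∀ (U : Finset ι) (y : ι → ℤˣ), ∑ j, w j * val (flp U y j) =
        ∑ j, w j * val (y j) - 2 * ∑ j ∈ U, w j * val (y j) := by
      intro U y
      have h1 : ∀ j, w j * val (flp U y j) = w j * val (y j) - 2 * (if j ∈ U then w j * val (y j) else 0) := by
        intro j
        rw [flp]
        split_ifs
        · rw [val_neg]; ring
        · ring
      simp_rw [h1]
      rw [Finset.sum_sub_distrib, ← Finset.mul_sum, Finset.sum_ite_mem, Finset.univ_inter]
    set P := insert i ((R.erase i).filter (fun j => 0 < w j * val (x j))) with hP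
    set N := insert i ((R.erase i).filter (fun j => ¬ 0 < w j * val (x j))) with hN
    have habs : ∀ j, |w j * val (x j)| = |w j| := by
      intro j
      rw [abs_mul]
      rcases Int.units_eq_one_or (x j) with h1 | h1 <;> simp [h1]
    have hPval : ∀ j ∈ P, |w i| ≤ w j * val (yt j) := by
      intro j hj
      rw [hP, Finset.mem_insert] at hj
      rcases hj with rfl | hj
      · rw [hyt]; simp [hu]
      · rw [Finset.mem_filter, Finset.mem_erase] at hj
        rw [hyt, Function.update_of_ne hj.1.1]
        have := habs j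
        rw [abs_of_pos hj.2] at this
        rw [this]; exact hmin j hj.1.2
    have hNval : ∀ j ∈ N, w j * val (yb j) ≤ -|w i| := by
      intro j hj
      rw [hN, Finset.mem_insert] at hj
      rcases hj with rfl | hj
      · rw [hyb]; simp [val_neg, hu]
      · rw [Finset.mem_filter, Finset.mem_erase] at hj
        rw [hyb, Function.update_of_ne hj.1.1]
        have := habs j
        rw [abs_of_nonpos (not_lt.mp hj.2)] at this
        have := hmin j hj.1.2
        linarith
    have hPc : P.card ≤ d := by
      apply card_le_of_and hd yt (by rw [hft]; norm_num)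
      intro U hU hU0
      rw [hft, hneg, hflip]
      obtain ⟨j, hj⟩ := Finset.nonempty_iff_ne_empty.mpr hU0
      have h1 : |w i| ≤ ∑ j ∈ U, w j * val (yt j) := by
        calc |w i| ≤ w j * val (yt j) := hPval j (hU hj)
          _ ≤ _ := Finset.single_le_sum (f := fun j => w j * val (yt j))
            (fun k hk => hwpos.le.trans (hPval k (hU hk))) hj
      have h2 := (hneg yb).mp hfb
      rw [hLb] at h2
      rw [hLt]
      linarith
    have hNc : N.card ≤ d := by
      apply card_le_of_and hd yb (by rw [hfb]; norm_num)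
      intro U hU hU0
      rw [hfb, neg_neg, h, hflip]
      obtain ⟨j, hj⟩ := Finset.nonempty_iff_ne_empty.mpr hU0
      have h1 : |w i| ≤ ∑ j ∈ U, -(w j * val (yb j)) := by
        calc |w i| ≤ -(w j * val (yb j)) := by linarith [hNval j (hU hj)]
          _ ≤ _ := Finset.single_le_sum (f := fun j => -(w j * val (yb j)))
            (fun k hk => by linarith [hNval k (hU hk)]) hj
      rw [Finset.sum_neg_distrib] at h1
      have h2 := (h yt).mp hft
      rw [hLt] at h2
      rw [hLb]
      linarith
    have hsplit := Finset.card_filter_add_card_filter_not (s := R.erase i) (fun j => 0 < w j * val (x j))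
    have h1 : P.card = ((R.erase i).filter (fun j => 0 < w j * val (x j))).card + 1 := by
      rw [hP, Finset.card_insert_of_notMem (by simp)]
    have h2 : N.card = ((R.erase i).filter (fun j => ¬ 0 < w j * val (x j))).card + 1 := by
      rw [hN, Finset.card_insert_of_notMem (by simp)]
    have h3 := Finset.card_erase_of_mem hiR
    have h4 := Finset.card_pos.mpr ⟨i, hiR⟩
    omega
  have hlin : lin f = ∑ i ∈ R, fh f {i} := by
    rw [lin, hR, Finset.sum_filter_ne_zero]
  have hsum : ∑ i ∈ R, fh f {i} ^ 2 ≤ 1 := by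
    rw [← bessel hf]
    calc ∑ i ∈ R, fh f {i} ^ 2 = ∑ S ∈ R.map ⟨fun i => ({i} : Finset ι), Finset.singleton_injective⟩, fh f S ^ 2 := by
          rw [Finset.sum_map]; rfl
      _ ≤ ∑ S, fh f S ^ 2 :=
          Finset.sum_le_sum_of_subset_of_nonneg (Finset.subset_univ _) (fun S _ _ => sq_nonneg _)
  have hcs : lin f ^ 2 ≤ R.card * 1 := by
    rw [hlin]
    calc (∑ i ∈ R, fh f {i}) ^ 2 ≤ R.card * ∑ i ∈ R, fh f {i} ^ 2 := sq_sum_le_card_mul_sum_sq
      _ ≤ R.card * 1 := mul_le_mul_of_nonneg_left hsum (Nat.cast_nonneg _)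
  apply Real.abs_le_sqrt
  have : (R.card : ℝ) ≤ 2 * d := by exact_mod_cast hcard
  linarith

end

end Vale.Agent.P047
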