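import Mathlib
import Vale.Agent.P047.Cubes
import Vale.Agent.P047.Dichotomy

namespace Vale.Agent.P047

open Finset

noncomputable section

def tA (i : Fin 7) : Finset (Fin 7) := {i, i + 1, i + 2, i + 4}

def tz (i : Fin 7) (j : Fin 7) : ℤˣ := if j = i then -1 else 1

def tf (x : Fin 7 → ℤˣ) : ℝ := (-1) + 2 * ∑ i, cube (tA i) (tz i) x

lemma tA_card (i : Fin 7) : (tA i).card = 4 := by
  revert i; decide

lemma t_conflict (i i' : Fin 7) (h : i ≠ i') : ∃ j, j ∈ tA i ∧ j ∈ tA i' ∧ tz i j ≠ tz i' j := by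
  revert i i'; decide

lemma tf_bo : Bo tf := by
  intro x
  have h : ∑ i, cube (tA i) (tz i) x = 0 ∨ ∑ i, cube (tA i) (tz i) x = 1 := by
    by_cases hex : ∃ i, ∀ j ∈ tA i, x j = tz i j
    · obtain ⟨i, hi⟩ := hex
      right
      rw [Finset.sum_eq_single i]
      · rw [cube, if_pos hi]
      · intro i' _ hne
        rw [cube, if_neg]
        intro h2
        obtain ⟨j, hj1, hj2, hj3⟩ := t_conflict i' i hne
        exact hj3 ((h2 j hj1).symm.trans (hi j hj2))
      · simp
    · left
      refine Finset.sum_eq_zero fun i _ => ?_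
      rw [cube, if_neg]
      exact fun h => hex ⟨i, h⟩
  rw [tf]
  rcases h with h | h <;> rw [h] <;> norm_num

lemma tf_deg : DegLE tf 4 := by
  intro T hT
  have hne : T ≠ ∅ := by rintro rfl; simp at hT
  have h : tf = fun x => (-1) + 2 * ∑ i, cube (tA i) (tz i) x := rfl
  rw [h, fh_add (fun _ => (-1 : ℝ)), fh_const, fh_const_mul, fh_sum, if_neg hne]
  have : ∑ i, fh (cube (tA i) (tz i)) T = 0 := by
    refine Finset.sum_eq_zero fun i _ => ?_
    rw [fh_cube, if_neg]
    intro hsub
    have := Finset.card_le_card hsub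
    rw [tA_card] at this
    omega
  rw [this]; simp

lemma tz_sum (i : Fin 7) : ∑ j ∈ tA i, val (tz i j) = 2 := by
  have h : (∑ j ∈ tA i, ((tz i j : ℤˣ) : ℤ)) = 2 := by
    revert i; decide
  simp only [val]
  exact_mod_cast h

lemma tf_lin : lin tf = 7 / 4 := by
  have h := lin_of_conical (f := tf) Finset.univ (fun _ => (1 : ℝ)) tA tz (by
    intro x
    rw [tf]
    simp only [one_mul]
    ring)
  rw [h]
  simp_rw [tA_card, tz_sum]
  simp
  norm_num

theorem M_four : 7 / 4 ≤ M 4 := by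
  rw [← tf_lin]
  exact le_M (by norm_num) tf_bo tf_deg

end

end Vale.Agent.P047
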